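import Vale.Agent.P216.V754.Tri
import Vale.Agent.P216.V609.NPol
import Vale.Agent.P216.V670.Fin

/-!
# P216-V, F-COL: direct limits of dgas, of extensions, of polynomials, of towers

`IsCol D f G g`: the dga `G` is the direct limit of the `D i` (predicate form). It passes to
`D ⟨e⟩` (`IsCol.ex`, `IsCol.exC`), `D [b]` (`IsCol.pol`, `IsCol.polC`), towers (`IsCol.tw`,
`IsCol.ntw`). `pushAt_col`: 670's `PushAt` for the limits from a statement at each index.
-/

open Polynomial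

namespace Vale.Agent.P216.V754

open Vale.Agent.P216.V609 Vale.Agent.P216.V775

universe u v w u' v' w'

section

variable {k : Type*} [Field k] {ι : Type*} [Preorder ι] {A : ι → Type*} [∀ i, Ring (A i)]
  [∀ i, Algebra k (A i)] {B : Type*} [Ring B] [Algebra k B]

/-- **`G` is the direct limit of the `D i`.** -/
structure IsCol (D : ∀ i, NDga k (A i)) (f : ∀ i j, i ≤ j → NDga.Hom (D i) (D j))
    (G : NDga k B) (g : ∀ i, NDga.Hom (D i) G) : Prop where
  comp : ∀ i j (h : i ≤ j) a, (g j).f ((f i j h).f a) = (g i).f a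
  ff : ∀ i j l (h : i ≤ j) (h' : j ≤ l) a,
    (f j l h').f ((f i j h).f a) = (f i l (h.trans h')).f a
  surj : ∀ i {m : ℕ} {z : B}, z ∈ G.deg m → ∃ j, i ≤ j ∧ ∃ a ∈ (D j).deg m, (g j).f a = z
  inj : ∀ i a, (g i).f a = 0 → ∃ j, ∃ h : i ≤ j, (f i j h).f a = 0

/-- the same for cdgas -/
def CCol (C : ∀ i, Cdga k (A i)) (f : ∀ i j, i ≤ j → Cdga.Hom (C i) (C j))
    (G : Cdga k B) (g : ∀ i, Cdga.Hom (C i) G) : Prop :=
  IsCol (fun i => (C i).toN) (fun i j h => (f i j h).toN) G.toN (fun i => (g i).toN)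

namespace IsCol

variable {D : ∀ i, NDga k (A i)} {f : ∀ i j, i ≤ j → NDga.Hom (D i) (D j)}
  {G : NDga k B} {g : ∀ i, NDga.Hom (D i) G} (H : IsCol D f G g)

include H

theorem eq_of {i : ι} {a b : A i} (h : (g i).f a = (g i).f b) :
    ∃ j, ∃ hj : i ≤ j, (f i j hj).f a = (f i j hj).f b := by
  obtain ⟨j, hj, h1⟩ := H.inj i (a - b) (by rw [map_sub, h, sub_self])
  exact ⟨j, hj, by rwa [map_sub, sub_eq_zero] at h1⟩

/-- an equation holds at a later index, and at all the indices after it -/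
theorem zero_later {i j l : ι} {a : A i} (h : i ≤ j) (h' : j ≤ l) (h0 : (f i j h).f a = 0) :
    (f i l (h.trans h')).f a = 0 := by
  rw [← H.ff i j l h h', h0, map_zero]

theorem eq_later {i j l : ι} {a b : A i} (h : i ≤ j) (h' : j ≤ l)
    (h0 : (f i j h).f a = (f i j h).f b) :
    (f i l (h.trans h')).f a = (f i l (h.trans h')).f b := by
  rw [← H.ff i j l h h', h0, H.ff]

/-- a homogeneous element of the limit, at a late index -/
theorem exists_deg (i : ι) {m : ℕ} {z : B} (hz : z ∈ G.deg m) :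
    ∃ j, i ≤ j ∧ ∃ a ∈ (D j).deg m, (g j).f a = z := H.surj i hz

/-- two homogeneous elements of the limit, at a common late index -/
theorem exists_deg₂ (i : ι) {m m' : ℕ} {z z' : B} (hz : z ∈ G.deg m) (hz' : z' ∈ G.deg m') :
    ∃ j, i ≤ j ∧ ∃ a ∈ (D j).deg m, ∃ a' ∈ (D j).deg m', (g j).f a = z ∧ (g j).f a' = z' := by
  obtain ⟨j, hj, a, ha, h1⟩ := H.surj i hz
  obtain ⟨l, hl, b, hb, h2⟩ := H.surj j hz'
  exact ⟨l, hj.trans hl, (f j l hl).f a, (f j l hl).deg ha, b, hb, by rw [H.comp, h1], h2⟩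

theorem mem_deg {i : ι} {a : A i} {m : ℕ} (h : (g i).f a ∈ G.deg m) :
    ∃ j, ∃ hj : i ≤ j, (f i j hj).f a ∈ (D j).deg m := by
  obtain ⟨j, hj, b, hb, h1⟩ := H.surj i h
  obtain ⟨l, hl, h2⟩ := H.eq_of (i := j) (a := b) (b := (f i j hj).f a) (by rw [h1, H.comp])
  refine ⟨l, hj.trans hl, ?_⟩
  rw [← H.ff i j l hj hl, ← h2]
  exact (f j l hl).deg hb

/-- **a closed element of the limit is the image of a closed element**, at late indices -/
theorem exists_Z (i : ι) {m : ℕ} {z : B} (hz : z ∈ G.Z m) :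
    ∃ j, i ≤ j ∧ ∃ a ∈ (D j).Z m, (g j).f a = z := by
  obtain ⟨j, hj, a, ha, h1⟩ := H.surj i hz.1
  have h2 : (g j).f ((D j).d a) = 0 := by
    rw [(g j).d, h1]
    exact hz.2
  obtain ⟨l, hl, h3⟩ := H.inj j _ h2
  refine ⟨l, hj.trans hl, (f j l hl).f a, ⟨(f j l hl).deg ha, ?_⟩, by rw [H.comp, h1]⟩
  show (D l).d _ = 0
  rw [← (f j l hl).d, h3]

theorem mem_Z {i : ι} {a : A i} {m : ℕ} (h : (g i).f a ∈ G.Z m) :
    ∃ j, ∃ hj : i ≤ j, (f i j hj).f a ∈ (D j).Z m := by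
  obtain ⟨j, hj, b, hb, h1⟩ := H.exists_Z i h
  obtain ⟨l, hl, h2⟩ := H.eq_of (i := j) (a := b) (b := (f i j hj).f a) (by rw [h1, H.comp])
  refine ⟨l, hj.trans hl, ?_⟩
  rw [← H.ff i j l hj hl, ← h2]
  exact (f j l hl).map_Z hb

/-- **exact in the limit = exact at a later index** -/
theorem mem_B {i : ι} {a : A i} {m : ℕ} (h : (g i).f a ∈ G.B m) :
    ∃ j, ∃ hj : i ≤ j, (f i j hj).f a ∈ (D j).B m := by
  cases m with
  | zero =>
    obtain ⟨j, hj, h1⟩ := H.inj i a h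
    exact ⟨j, hj, h1⟩
  | succ m =>
    obtain ⟨z, hz, h1⟩ := h
    obtain ⟨j, hj, b, hb, h2⟩ := H.surj i hz
    obtain ⟨l, hl, h3⟩ := H.eq_of (i := j) (a := (D j).d b) (b := (f i j hj).f a)
      (by rw [(g j).d, h2, h1, H.comp])
    refine ⟨l, hj.trans hl, ?_⟩
    rw [← H.ff i j l hj hl, ← h3, (f j l hl).d]
    exact ⟨_, (f j l hl).deg hb, rfl⟩

theorem mem_B_iff {i : ι} {a : A i} {m : ℕ} :
    (g i).f a ∈ G.B m ↔ ∃ j, ∃ hj : i ≤ j, (f i j hj).f a ∈ (D j).B m :=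
  ⟨H.mem_B, fun ⟨j, hj, h⟩ => by rw [← H.comp i j hj]; exact (g j).map_B h⟩

/-- **closed elements become exact** if they do in the limit -/
theorem exact_of {m : ℕ} (h : G.Z m ≤ G.B m) {i : ι} {a : A i} (ha : a ∈ (D i).Z m) :
    ∃ j, ∃ hj : i ≤ j, (f i j hj).f a ∈ (D j).B m := H.mem_B (h ((g i).map_Z ha))

/-- **closed elements of degree zero become constant** if they do in the limit -/
theorem const_of (h : ∀ z ∈ G.Z 0, ∃ c : k, z = algebraMap k B c) {i : ι} {a : A i}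
    (ha : a ∈ (D i).Z 0) : ∃ c : k, ∃ j, ∃ hj : i ≤ j, (f i j hj).f a = algebraMap k _ c := by
  obtain ⟨c, hc⟩ := h _ ((g i).map_Z ha)
  obtain ⟨j, hj, h1⟩ := H.eq_of (i := i) (a := a) (b := algebraMap k _ c)
    (by rw [hc, AlgHom.commutes])
  exact ⟨c, j, hj, by rw [h1, AlgHom.commutes]⟩

omit H [Preorder ι] in
/-- **a class which is not exact in the limit is not exact at any index** -/
theorem not_mem_B {m : ℕ} {i : ι} {a : A i} (h : (g i).f a ∉ G.B m) : a ∉ (D i).B m :=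
  fun h1 => h ((g i).map_B h1)

theorem surjS (i : ι) {m l : ℕ} {z : B} (hz : z ∈ G.degS l m) :
    ∃ j, i ≤ j ∧ ∃ a ∈ (D j).degS l m, (g j).f a = z := by
  rcases G.mem_degS hz with h | ⟨n, hn, h⟩
  · exact ⟨i, le_rfl, 0, Submodule.zero_mem _, by rw [map_zero, h]⟩
  · obtain ⟨j, hj, a, ha, h1⟩ := H.surj i h
    exact ⟨j, hj, a, (D j).degS_of hn ha, h1⟩

omit H in
theorem degS_map {A A' : Type*} [Ring A] [Algebra k A] [Ring A'] [Algebra k A']
    {D : NDga k A} {D' : NDga k A'} (φ : NDga.Hom D D') {l m : ℕ} {a : A}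
    (h : a ∈ D.degS l m) : φ.f a ∈ D'.degS l m := NDga.Hom.degS_map φ h

/-- **one odd generator** -/
theorem ex {l : ℕ} (hl : Odd l) (x : ∀ i, A i) (hx : ∀ i, x i ∈ (D i).deg (l + 1))
    (hdx : ∀ i, (D i).d (x i) = 0) (hxc : ∀ i b, x i * b = b * x i)
    (hf : ∀ i j h, (f i j h).f (x i) = x j) {y : B} (hy : y ∈ G.deg (l + 1)) (hdy : G.d y = 0)
    (hyc : ∀ b, y * b = b * y) (hg : ∀ i, (g i).f (x i) = y) :
    IsCol (fun i => (D i).ex hl (hx i) (hdx i) (hxc i))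
      (fun i j h => (f i j h).exMap hl (hx i) (hdx i) (hxc i) (hx j) (hdx j) (hxc j) (hf i j h))
      (G.ex hl hy hdy hyc)
      (fun i => (g i).exMap hl (hx i) (hdx i) (hxc i) hy hdy hyc (hg i)) where
  comp i j h a := NEx.ext (H.comp i j h a.1) (H.comp i j h a.2)
  ff i j l h h' a := NEx.ext (H.ff i j l h h' a.1) (H.ff i j l h h' a.2)
  surj := by
    rintro i m z ⟨h1, h2⟩
    obtain ⟨j, hj, a, ha, e1⟩ := H.surj i h1
    obtain ⟨l, hl, b, hb, e2⟩ := H.surjS j h2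
    exact ⟨l, hj.trans hl, ⟨(f j l hl).f a, b⟩, ⟨(f j l hl).deg ha, hb⟩,
      NEx.ext ((H.comp j l hl a).trans e1) e2⟩
  inj := by
    intro i a h
    have h1 : (g i).f a.1 = 0 := congrArg NEx.fst h
    have h2 : (g i).f a.2 = 0 := congrArg NEx.snd h
    obtain ⟨j, hj, e1⟩ := H.inj i _ h1
    obtain ⟨l, hl, e2⟩ := H.inj j ((f i j hj).f a.2) (by rw [H.comp, h2])
    refine ⟨l, hj.trans hl, NEx.ext (H.zero_later hj hl e1) ?_⟩
    exact (H.ff i j l hj hl a.2).symm.trans e2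

/-- common lifts of the coefficients of a polynomial -/
theorem lift_coeff (i : ι) {m n : ℕ} {p : B[X]} (hp : ∀ t, p.coeff t ∈ G.degS (t * m) n)
    (s : Finset ℕ) : ∃ j, i ≤ j ∧ ∃ q : (A j)[X], (∀ t, q.coeff t ∈ (D j).degS (t * m) n) ∧
      (∀ t ∈ s, (g j).f (q.coeff t) = p.coeff t) ∧ ∀ t ∉ s, q.coeff t = 0 := by
  classical
  induction s using Finset.induction_on with
  | empty => exact ⟨i, le_rfl, 0, fun t => by rw [coeff_zero]; exact Submodule.zero_mem _,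
      fun t ht => absurd ht (Finset.notMem_empty t), fun t _ => coeff_zero t⟩
  | insert t s ht ih =>
    obtain ⟨j, hj, q, h1, h2, h3⟩ := ih
    obtain ⟨l, hl, a, ha, h4⟩ := H.surjS j (hp t)
    refine ⟨l, hj.trans hl, mapAlgHom (f j l hl).f q + monomial t a, fun r => ?_, fun r hr => ?_,
      fun r hr => ?_⟩
    · rw [coeff_add, coeff_mapAlgHom_apply, coeff_monomial]
      refine Submodule.add_mem _ (degS_map _ (h1 r)) ?_
      split_ifs with e
      · rw [← e]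
        exact ha
      · exact Submodule.zero_mem _
    · rw [coeff_add, coeff_mapAlgHom_apply, coeff_monomial, map_add, H.comp]
      rcases Finset.mem_insert.1 hr with rfl | hr
      · rw [h3 r ht, map_zero, zero_add, if_pos rfl, h4]
      · rw [h2 r hr, if_neg (fun e : t = r => ht (e ▸ hr)), map_zero (g l).f, add_zero]
    · rw [coeff_add, coeff_mapAlgHom_apply, coeff_monomial,
        h3 r fun h => hr (Finset.mem_insert_of_mem h), map_zero, zero_add,
        if_neg fun e : t = r => hr (e ▸ Finset.mem_insert_self t s)]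

/-- a polynomial which is zero in the limit is zero later -/
theorem zero_coeff {i : ι} (p : (A i)[X]) (hp : ∀ t, (g i).f (p.coeff t) = 0)
    (s : Finset ℕ) : ∃ j, ∃ hj : i ≤ j, ∀ t ∈ s, (f i j hj).f (p.coeff t) = 0 := by
  classical
  induction s using Finset.induction_on with
  | empty => exact ⟨i, le_rfl, fun t ht => absurd ht (Finset.notMem_empty t)⟩
  | insert t s ht ih =>
    obtain ⟨j, hj, h1⟩ := ih
    obtain ⟨l, hl, h2⟩ := H.inj j ((f i j hj).f (p.coeff t)) (by rw [H.comp, hp])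
    refine ⟨l, hj.trans hl, fun r hr => ?_⟩
    rcases Finset.mem_insert.1 hr with rfl | hr
    · rw [← H.ff i j l hj hl, h2]
    · exact H.zero_later hj hl (h1 r hr)

/-- **one even generator** -/
theorem pol {m : ℕ} (hm : Even m) (h2 : (2 : k) ≠ 0) (x : ∀ i, A i)
    (hx : ∀ i, x i ∈ (D i).deg (m + 1)) (hdx : ∀ i, (D i).d (x i) = 0)
    (hxc : ∀ i b, x i * b = (D i).sg b * x i) (hf : ∀ i j h, (f i j h).f (x i) = x j) {y : B}
    (hy : y ∈ G.deg (m + 1)) (hdy : G.d y = 0) (hyc : ∀ b, y * b = G.sg b * y)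
    (hg : ∀ i, (g i).f (x i) = y) :
    IsCol (fun i => (D i).pol hm h2 (hx i) (hdx i) (hxc i))
      (fun i j h => (f i j h).polMap hm h2 (hx i) (hdx i) (hxc i) (hx j) (hdx j) (hxc j)
        (hf i j h))
      (G.pol hm h2 hy hdy hyc)
      (fun i => (g i).polMap hm h2 (hx i) (hdx i) (hxc i) hy hdy hyc (hg i)) where
  comp i j h a := by
    ext n
    rw [NDga.Hom.polMap_coeff, NDga.Hom.polMap_coeff, NDga.Hom.polMap_coeff, H.comp]
  ff i j l h h' a := by
    ext n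
    rw [NDga.Hom.polMap_coeff, NDga.Hom.polMap_coeff, NDga.Hom.polMap_coeff, H.ff]
  surj := by
    intro i n z hz
    obtain ⟨j, hj, q, h3, h4, h5⟩ := H.lift_coeff i hz z.support
    refine ⟨j, hj, q, h3, ?_⟩
    ext t
    rw [NDga.Hom.polMap_coeff]
    by_cases ht : t ∈ z.support
    · exact h4 t ht
    · rw [h5 t ht, map_zero, notMem_support_iff.1 ht]
  inj := by
    intro i a h
    obtain ⟨j, hj, h3⟩ := H.zero_coeff a (fun t => by
      have := congrArg (fun p => p.coeff t) h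
      simpa only [NDga.Hom.polMap_coeff, coeff_zero] using this) a.support
    refine ⟨j, hj, ?_⟩
    ext t
    rw [NDga.Hom.polMap_coeff, coeff_zero]
    by_cases ht : t ∈ a.support
    · exact h3 t ht
    · rw [notMem_support_iff.1 ht, map_zero]

end IsCol

namespace CCol

variable {C : ∀ i, Cdga k (A i)} {f : ∀ i j, i ≤ j → Cdga.Hom (C i) (C j)}
  {G : Cdga k B} {g : ∀ i, Cdga.Hom (C i) G} (H : CCol C f G g)

include H

theorem isCol : IsCol (fun i => (C i).toN) (fun i j h => (f i j h).toN) G.toN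
    (fun i => (g i).toN) := H

theorem exists_Z (i : ι) {m : ℕ} {z : B} (hz : z ∈ G.Z m) :
    ∃ j, i ≤ j ∧ ∃ a ∈ (C j).Z m, (g j).f a = z := H.isCol.exists_Z i (G.toN_Z m ▸ hz)

theorem mem_B {i : ι} {a : A i} {m : ℕ} (h : (g i).f a ∈ G.B m) :
    ∃ j, ∃ hj : i ≤ j, (f i j hj).f a ∈ (C j).B m := by
  obtain ⟨j, hj, h1⟩ := H.isCol.mem_B (m := m) (i := i) (a := a) (by rw [Cdga.toN_B]; exact h)
  exact ⟨j, hj, by rw [← Cdga.toN_B]; exact h1⟩

theorem eq_of {i : ι} {a b : A i} (h : (g i).f a = (g i).f b) :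
    ∃ j, ∃ hj : i ≤ j, (f i j hj).f a = (f i j hj).f b := H.isCol.eq_of h

/-- **closed elements become exact** if they do in the limit -/
theorem exact_of {m : ℕ} (h : G.Z m ≤ G.B m) {i : ι} {a : A i} (ha : a ∈ (C i).Z m) :
    ∃ j, ∃ hj : i ≤ j, (f i j hj).f a ∈ (C j).B m := H.mem_B (h ((g i).map_Z ha))

theorem const_of (h : ∀ z ∈ G.Z 0, ∃ c : k, z = algebraMap k B c) {i : ι} {a : A i}
    (ha : a ∈ (C i).Z 0) : ∃ c : k, ∃ j, ∃ hj : i ≤ j, (f i j hj).f a = algebraMap k _ c :=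
  H.isCol.const_of h ha

omit H [Preorder ι] in
theorem not_mem_B {m : ℕ} {i : ι} {a : A i} (h : (g i).f a ∉ G.B m) : a ∉ (C i).B m :=
  fun h1 => h ((g i).map_B h1)

/-- **one odd generator** -/
theorem ex {l : ℕ} (hl : Odd l) (x : ∀ i, A i) (hx : ∀ i, x i ∈ (C i).deg (l + 1))
    (hdx : ∀ i, (C i).d (x i) = 0) (hf : ∀ i j h, (f i j h).f (x i) = x j) {y : B}
    (hy : y ∈ G.deg (l + 1)) (hdy : G.d y = 0) (hg : ∀ i, (g i).f (x i) = y) :
    CCol (fun i => (C i).ex hl (hx i) (hdx i))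
      (fun i j h => (f i j h).exMap hl (hx i) (hdx i) (hx j) (hdx j) (hf i j h))
      (G.ex hl hy hdy) (fun i => (g i).exMap hl (hx i) (hdx i) hy hdy (hg i)) where
  comp i j h a := Ex.ext (H.comp i j h a.1) (H.comp i j h a.2)
  ff i j l h h' a := Ex.ext (H.ff i j l h h' a.1) (H.ff i j l h h' a.2)
  surj := by
    rintro i m z ⟨h1, h2⟩
    obtain ⟨j, hj, a, ha, e1⟩ := H.isCol.surj i h1
    obtain ⟨l, hl, b, hb, e2⟩ := H.isCol.surjS j h2
    exact ⟨l, hj.trans hl, ⟨(f j l hl).f a, b⟩, ⟨(f j l hl).deg ha, hb⟩,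
      Ex.ext ((H.comp j l hl a).trans e1) e2⟩
  inj := by
    intro i a h
    have h1 : (g i).f a.1 = 0 := congrArg Ex.fst h
    have h2 : (g i).f a.2 = 0 := congrArg Ex.snd h
    obtain ⟨j, hj, e1⟩ := H.isCol.inj i _ h1
    obtain ⟨l, hl, e2⟩ := H.isCol.inj j ((f i j hj).f a.2) ((H.comp i j hj a.2).trans h2)
    refine ⟨l, hj.trans hl, Ex.ext (H.isCol.zero_later hj hl e1) ?_⟩
    exact (H.ff i j l hj hl a.2).symm.trans e2

/-- **one even generator** -/
theorem pol {m : ℕ} (hm : Even m) (h2 : (2 : k) ≠ 0) (x : ∀ i, A i)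
    (hx : ∀ i, x i ∈ (C i).deg (m + 1)) (hdx : ∀ i, (C i).d (x i) = 0)
    (hf : ∀ i j h, (f i j h).f (x i) = x j) {y : B}
    (hy : y ∈ G.deg (m + 1)) (hdy : G.d y = 0) (hg : ∀ i, (g i).f (x i) = y) :
    CCol (fun i => V651.pol (C i) hm h2 (hx i) (hdx i))
      (fun i j h => V651.polMap (f i j h) hm h2 (hx i) (hdx i) (hx j) (hdx j) (hf i j h))
      (V651.pol G hm h2 hy hdy)
      (fun i => V651.polMap (g i) hm h2 (hx i) (hdx i) hy hdy (hg i)) where
  comp i j h a := by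
    ext n
    exact (coeff_mapAlgHom_apply _ _ _).trans ((congrArg _ (coeff_mapAlgHom_apply _ _ _)).trans
      ((H.comp i j h _).trans (coeff_mapAlgHom_apply _ _ _).symm))
  ff i j l h h' a := by
    ext n
    exact (coeff_mapAlgHom_apply _ _ _).trans ((congrArg _ (coeff_mapAlgHom_apply _ _ _)).trans
      ((H.ff i j l h h' _).trans (coeff_mapAlgHom_apply _ _ _).symm))
  surj := by
    intro i n z hz
    obtain ⟨j, hj, q, h3, h4, h5⟩ := H.isCol.lift_coeff i (p := z) hz z.support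
    refine ⟨j, hj, q, h3, ?_⟩
    ext t
    refine (coeff_mapAlgHom_apply _ _ _).trans ?_
    by_cases ht : t ∈ z.support
    · exact h4 t ht
    · rw [h5 t ht, map_zero, notMem_support_iff.1 ht]
  inj := by
    intro i a h
    obtain ⟨j, hj, h3⟩ := H.isCol.zero_coeff a (fun t => by
      have := congrArg (fun p : B[X] => p.coeff t) h
      rw [coeff_zero] at this
      exact (coeff_mapAlgHom_apply _ _ _).symm.trans this) a.support
    refine ⟨j, hj, ?_⟩
    ext t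
    refine (coeff_mapAlgHom_apply _ _ _).trans ?_
    rw [coeff_zero]
    by_cases ht : t ∈ a.support
    · exact h3 t ht
    · rw [notMem_support_iff.1 ht, map_zero]

end CCol

end

/-! ### Towers -/

section

variable {k : Type w} [Field k] {ι : Type w'} [Preorder ι]

/-- **towers**, the base -/
theorem CCol.tw {X₀ : CD.{u} k} (T : Tw X₀) (X : ι → CD.{v} k) (u : ∀ i, X₀.Hm (X i))
    (f : ∀ i j, i ≤ j → (X i).Hm (X j)) (hu : ∀ i j h a, (f i j h).f ((u i).f a) = (u j).f a)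
    {Xg : CD.{v'} k} (g : ∀ i, (X i).Hm Xg) (v : X₀.Hm Xg)
    (hv : ∀ i a, (g i).f ((u i).f a) = v.f a) (H : CCol (fun i => (X i).C) f Xg.C g) :
    CCol (fun i => (T.push (u i)).top.C) (fun i j h => tri T (u i) (u j) (f i j h) (hu i j h))
      (T.push v).top.C (fun i => tri T (u i) v (g i) (hv i)) := by
  induction T generalizing X Xg with
  | nil X₀ => exact H
  | cons X₀ l hl x hx hdx T ih =>
    exact ih (fun i => (X i).ex hl ((u i).deg hx) ((u i).d_eq hdx))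
      (fun i => (u i).ex hl hx hdx)
      (fun i j h => (f i j h).exMap hl ((u i).deg hx) ((u i).d_eq hdx) ((u j).deg hx)
        ((u j).d_eq hdx) (hu i j h x))
      (fun i j h a => Ex.ext (hu i j h a.1) (hu i j h a.2))
      (fun i => (g i).exMap hl ((u i).deg hx) ((u i).d_eq hdx) (v.deg hx) (v.d_eq hdx) (hv i x))
      (v.ex hl hx hdx) (fun i a => Ex.ext (hv i a.1) (hv i a.2))
      (H.ex hl (fun i => (u i).f x) (fun i => (u i).deg hx) (fun i => (u i).d_eq hdx)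
        (fun i j h => hu i j h x) (v.deg hx) (v.d_eq hdx) (fun i => hv i x))

/-- **towers**, non-commutative algebras -/
theorem IsCol.ntw {X₀ : CD.{u} k} (T : Tw X₀) (X : ι → CD.{v} k) (u : ∀ i, X₀.Hm (X i))
    (f : ∀ i j, i ≤ j → (X i).Hm (X j)) (hu : ∀ i j h a, (f i j h).f ((u i).f a) = (u j).f a)
    {Xg : CD.{v'} k} (g : ∀ i, (X i).Hm Xg) (v : X₀.Hm Xg)
    (hv : ∀ i a, (g i).f ((u i).f a) = v.f a) (A : ∀ i, ND.{u'} (X i))
    (a : ∀ i j h, NMp (f i j h) (A i) (A j)) {Ag : ND.{u'} Xg} (ag : ∀ i, NMp (g i) (A i) Ag)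
    (H : IsCol (fun i => (A i).D) (fun i j h => (a i j h).g) Ag.D (fun i => (ag i).g)) :
    IsCol (fun i => ((T.push (u i)).obj (A i)).D)
      (fun i j h => (ntri T (u i) (u j) (f i j h) (hu i j h) (a i j h)).g)
      ((T.push v).obj Ag).D (fun i => (ntri T (u i) v (g i) (hv i) (ag i)).g) := by
  induction T generalizing X Xg with
  | nil X₀ => exact H
  | cons X₀ l hl x hx hdx T ih =>
    exact ih (fun i => (X i).ex hl ((u i).deg hx) ((u i).d_eq hdx))
      (fun i => (u i).ex hl hx hdx)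
      (fun i j h => (f i j h).exMap hl ((u i).deg hx) ((u i).d_eq hdx) ((u j).deg hx)
        ((u j).d_eq hdx) (hu i j h x))
      (fun i j h a => Ex.ext (hu i j h a.1) (hu i j h a.2))
      (fun i => (g i).exMap hl ((u i).deg hx) ((u i).d_eq hdx) (v.deg hx) (v.d_eq hdx) (hv i x))
      (v.ex hl hx hdx) (fun i a => Ex.ext (hv i a.1) (hv i a.2))
      (fun i => (A i).ex hl ((u i).deg hx) ((u i).d_eq hdx))
      (fun i j h => nex (a i j h) hl hx hdx (hu i j h x))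
      (fun i => nex (ag i) hl hx hdx (hv i x))
      (H.ex hl (fun i => (A i).ev.f ((u i).f x)) (fun i => (A i).ev.deg' ((u i).deg hx))
        (fun i => (A i).ev.d_closed ((u i).d_eq hdx))
        (fun i => (A i).ev.central_succ hl ((u i).deg hx))
        (fun i j h => by rw [(a i j h).ev, hu i j h x]) (Ag.ev.deg' (v.deg hx))
        (Ag.ev.d_closed (v.d_eq hdx)) (Ag.ev.central_succ hl (v.deg hx))
        (fun i => by rw [(ag i).ev, hv i x]))

end

/-! ### `PushAt` for limits -/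

section

variable {k : Type*} [Field k] {ι : Type*} [Preorder ι]
  {A A' A'' : ι → Type*} [∀ i, Ring (A i)] [∀ i, Algebra k (A i)] [∀ i, Ring (A' i)]
  [∀ i, Algebra k (A' i)] [∀ i, Ring (A'' i)] [∀ i, Algebra k (A'' i)]
  {B B' B'' : Type*} [Ring B] [Algebra k B] [Ring B'] [Algebra k B'] [Ring B''] [Algebra k B'']
  {D : ∀ i, NDga k (A i)} {f : ∀ i j, i ≤ j → NDga.Hom (D i) (D j)}
  {G : NDga k B} {g : ∀ i, NDga.Hom (D i) G}
  {O : ∀ i, NDga k (A' i)} {f' : ∀ i j, i ≤ j → NDga.Hom (O i) (O j)}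
  {G' : NDga k B'} {g' : ∀ i, NDga.Hom (O i) G'}
  {O' : ∀ i, NDga k (A'' i)} {f'' : ∀ i j, i ≤ j → NDga.Hom (O' i) (O' j)}
  {G'' : NDga k B''} {g'' : ∀ i, NDga.Hom (O' i) G''}

/-- **670's `PushAt` for limits** -/
theorem pushAt_col (H : IsCol D f G g) (H' : IsCol O f' G' g')
    (hg'' : ∀ i j h a, (g'' j).f ((f'' i j h).f a) = (g'' i).f a)
    (r : ∀ i, NDga.Hom (D i) (O i)) (R : NDga.Hom G G')
    (hr : ∀ i j h a, (r j).f ((f i j h).f a) = (f' i j h).f ((r i).f a))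
    (hR : ∀ i a, R.f ((g i).f a) = (g' i).f ((r i).f a))
    (σ : ∀ i, NDga.Hom (O i) (O' i)) (S : NDga.Hom G' G'')
    (hS : ∀ i a, S.f ((g' i).f a) = (g'' i).f ((σ i).f a))
    (y : ∀ i, A i) (hy : ∀ i j h, (f i j h).f (y i) = y j) {Y : B} (hY : ∀ i, (g i).f (y i) = Y)
    (q : ℕ) (i₀ : ι)
    (hp : ∀ i, i₀ ≤ i → ∀ (m m' : ℕ) (w c : A i), w ∈ (D i).deg m → c ∈ (D i).deg m' →
      m' + q = m → (D i).d w = y i * c →
      ((D i).d c = 0 ∨ ∃ m'' c', m'' + q = m' ∧ c' ∈ (D i).deg m'' ∧ (D i).d c = y i * c') →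
      (r i).f w ∈ (O i).B m →
      ∃ j, ∃ h : i ≤ j, (f'' i j h).f ((σ i).f ((r i).f c)) ∈ (O' j).B m') :
    V670.PushAt R S Y q := by
  intro m m' w c hw hc hm hdw hdc hB
  -- representatives at a common index
  have key : ∀ i, i₀ ≤ i → ∀ w' c' : A i, (g i).f w' = w → (g i).f c' = c → w' ∈ (D i).deg m →
      c' ∈ (D i).deg m' → ((D i).d c' = 0 ∨ ∃ m'' c'', m'' + q = m' ∧ c'' ∈ (D i).deg m'' ∧
        (D i).d c' = y i * c'') → S.f (R.f c) ∈ G''.B m' := by
    intro i hi w' c' hw' hc' hwd hcd hdc'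
    obtain ⟨j, hj, h1⟩ := H.eq_of (i := i) (a := (D i).d w') (b := y i * c') (by
      rw [(g i).d, hw', map_mul, hY, hc', hdw])
    have h2 : (g' j).f ((r j).f ((f i j hj).f w')) ∈ G'.B m := by
      rw [← hR, H.comp, hw']
      exact hB
    obtain ⟨l, hl, h3⟩ := H'.mem_B h2
    have e1 : (D l).d ((f i l (hj.trans hl)).f w') = y l * (f i l (hj.trans hl)).f c' := by
      rw [← (f i l _).d, H.eq_later hj hl h1, map_mul, hy]
    obtain ⟨t, ht, h4⟩ := hp l (hi.trans (hj.trans hl)) m m' ((f i l (hj.trans hl)).f w')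
      ((f i l (hj.trans hl)).f c') ((f i l _).deg hwd) ((f i l _).deg hcd) hm e1 (by
        rcases hdc' with h | ⟨m'', c'', e2, e3, e4⟩
        · exact Or.inl (by rw [← (f i l _).d, h, map_zero])
        · exact Or.inr ⟨m'', (f i l (hj.trans hl)).f c'', e2, (f i l _).deg e3, by
            rw [← (f i l _).d, e4, map_mul, hy]⟩) (by
        rw [← H.ff i j l hj hl, hr]
        exact h3)
    have h5 := (g'' t).map_B h4
    rwa [hg'', ← hS, ← hR, H.comp, hc'] at h5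
  rcases hdc with h | ⟨m'', c'', e2, e3, e4⟩
  · obtain ⟨i, hi, w', hw', c', hc', h1, h2⟩ := H.exists_deg₂ i₀ hw hc
    obtain ⟨j, hj, h3⟩ := H.inj i ((D i).d c') (by rw [(g i).d, h2, h])
    exact key j (hi.trans hj) ((f i j hj).f w') ((f i j hj).f c') (by rw [H.comp, h1])
      (by rw [H.comp, h2]) ((f i j hj).deg hw') ((f i j hj).deg hc')
      (Or.inl (by rw [← (f i j hj).d, h3]))
  · obtain ⟨i, hi, w', hw', c', hc', h1, h2⟩ := H.exists_deg₂ i₀ hw hc
    obtain ⟨j, hj, c₂, hc₂, h3⟩ := H.surj i e3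
    obtain ⟨l, hl, h4⟩ := H.eq_of (i := j) (a := (D j).d ((f i j hj).f c')) (b := y j * c₂) (by
      rw [(g j).d, H.comp, h2, e4, map_mul, hY, h3])
    refine key l (hi.trans (hj.trans hl)) ((f j l hl).f ((f i j hj).f w'))
      ((f j l hl).f ((f i j hj).f c')) (by rw [H.comp, H.comp, h1])
      (by rw [H.comp, H.comp, h2]) ((f j l hl).deg ((f i j hj).deg hw'))
      ((f j l hl).deg ((f i j hj).deg hc'))
      (Or.inr ⟨m'', (f j l hl).f c₂, e2, (f j l hl).deg hc₂, ?_⟩)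
    rw [← (f j l hl).d, h4, map_mul, hy]

end

end Vale.Agent.P216.V754
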