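import Vale.Agent.P216.V754.Tz
import Vale.Agent.P216.V670.GerTw
import Vale.Agent.P216.V670.TzU
import Vale.Agent.P216.V706.FB.Eta
import Vale.Agent.P216.V773.Rep

/-!
# P216-V, F-TOP: (F) for a tower, from a plain system and its germs

`GS S`: the germs of 670's `PSys S` (base `X`, hybrids `PF`, based loops `Om`). `GS.hInd`: for the
Koszul tower of a pair which comes from a finite scale the monomials in the two classes are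
independent on the based loops: the hypothesis `hInd` of `VS.vend`.
-/

universe w u v x u₁ u₂

set_option linter.checkUnivs false

open Polynomial

namespace Vale.Agent.P216.V754

open Vale.Agent.P216.V609 Vale.Agent.P216.V775 Vale.Agent.P216.V670 Vale.Agent.P216.V651
open Vale.Agent.P216.V706 (Two etaTw etaPol yTw)
open Vale.Agent.P216.V994 (Pair pairOf)
open Vale.Agent.P216.V773 (push push_y₁ push_y₂)
open Vale.Agent.P216.H285V (toDga)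

variable {k : Type w} [Field k] {ι : Type v} [Preorder ι]

section

universe u₃ x₁ x₂

variable {S : PSys.{w, u₁, u₂, u₃, v} k ι}
  {A : ℝ → Type x₁} [∀ t, Ring (A t)] [∀ t, Algebra k (A t)] {G : ∀ t, NDga k (A t)}
  {Q : ℝ → Type x₂} [∀ t, Ring (Q t)] [∀ t, Algebra k (Q t)] {O : ∀ t, NDga k (Q t)}
  {σ : ∀ s t, t ≤ s → NDga.Hom (O s) (O t)} {gr : ∀ t, NDga.Hom (G t) (O t)}

/-- **(F)**, for the system `S` and its `[b]`. -/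
theorem hInd_pol [CharZero k] [IsDirectedOrder ι] [Nonempty ι] {p q : ℕ} (hp : Even p)
    (hq : Even q) (hp0 : 0 < p) (h2 : (2 : k) ≠ 0) (H : Ger S G O σ gr) (Y : PSysY S p)
    (E : Eta S p) (E' : Eta (psysPol S hp h2 Y) q) (hE : ∀ i, E.η i = Y.y i) (η₂ : ∀ i, S.B i)
    (hE' : ∀ i, E'.η i = Polynomial.C (η₂ i)) {t₀ l : ℝ} (hL : S.Loss t₀ l)
    (ρ : ∀ s t, t ≤ s → NDga.Hom (G s) (G t))
    (gr_ρ : ∀ s t h a, (gr t).f ((ρ s t h).f a) = (σ s t h).f ((gr s).f a))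
    (y₁ y₂ : ∀ t, A t) (hy₁ : ∀ s t h, (ρ s t h).f (y₁ s) = y₁ t)
    (hy₂ : ∀ s t h, (ρ s t h).f (y₂ s) = y₂ t)
    (hm₁ : ∀ t, y₁ t ∈ (G t).deg (p + 1)) (hd₁ : ∀ t, (G t).d (y₁ t) = 0)
    (hc₁ : ∀ t b, y₁ t * b = (G t).sg b * y₁ t) (hc₂ : ∀ t b, y₂ t * b = (G t).sg b * y₂ t)
    (hγ₁ : ∀ t i, (H.γ t i).f ((S.φ t i).f (Y.y i)) = y₁ t)
    (hγ₂ : ∀ t i, (H.γ t i).f ((S.φ t i).f (η₂ i)) = y₂ t) (h0 : ∀ t, (gr t).f (y₁ t) = 0)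
    (h1 : ∀ t, (1 : Q t) ≠ 0) :
    ∃ b₀ : ℝ, ∀ (N : ℕ) (t : ℝ), b₀ * (N + 1) ≤ t → ∀ β₁ ∈ (G t).deg p, ∀ β₂ ∈ (G t).deg q,
      (G t).d β₁ = y₁ t → (G t).d β₂ = y₂ t →
      NIndep (O t) ((gr t).f β₁) ((gr t).f β₂) p q N := by
  refine hInd_of hp hq H (H.pol hp h2 Y hm₁ hd₁ hc₁ hγ₁ h0) E E' hL
    (loss_psysPol hp h2 Y hp0 hL) ρ gr_ρ
    (fun t => NDga.polInl (G t) hp h2 (hm₁ t) (hd₁ t) (hc₁ t))
    (fun t a => NDga.Hom.polZero_C ..) y₁ y₂ hy₁ hy₂ (fun t a ha => by rw [hc₁, ha])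
    (fun t a ha => ?_)
    (fun t => X) (fun t => NDga.X_mem_pol (G t) hp h2 (hm₁ t) (hd₁ t) (hc₁ t))
    (fun t => NDga.d_X_pol (G t) hp h2 (hm₁ t) (hd₁ t) (hc₁ t))
    (fun t => NDga.Hom.polZero_X ..) h1 (fun t i => by rw [hE, hγ₁]) (fun t i => ?_)
  · refine Polynomial.ext fun n => ?_
    have h3 : (G t).sg (coeff a n) = coeff a n :=
      (NDga.pol_sg_coeff ..).symm.trans (congrArg (fun p => coeff p n) ha)
    show coeff (Polynomial.C (y₂ t) * a) n = coeff (a * Polynomial.C (y₂ t)) n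
    rw [coeff_C_mul, coeff_mul_C, hc₂, h3]
  · rw [hE']
    refine Polynomial.ext fun n => ?_
    refine (NDga.Hom.polMap_coeff (H.γ t i) hp h2 _ _ _ (hm₁ t) (hd₁ t) (hc₁ t) (hγ₁ t i) _
      n).trans ((congrArg _ (CHom.pol_coeff ..)).trans ?_)
    show (H.γ t i).f ((S.φ t i).f (coeff (Polynomial.C (η₂ i)) n)) =
      coeff (Polynomial.C (y₂ t)) n
    rw [coeff_C, coeff_C]
    split_ifs
    · exact hγ₂ t i
    · rw [map_zero, map_zero]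

end

/-- **The germs of a system**: base, hybrids, based loops. -/
structure GS (S : PSys.{w, u₁, u₂, u₂, v} k ι) where
  X : CD.{x} k
  Xb : CD.{x} k
  ε : X.Hm Xb
  ε_van : ∀ p a, a ∈ X.C.deg (p + 1) → ε.f a = 0
  PF : NSysO.{u₂} X
  Om : NSysO.{u₂} Xb
  oPF : ∀ t, NMp ε (PF.Y t) (Om.Y t)
  oPF_ρ : ∀ s t h a, (oPF t).g.f ((PF.ρ s t h).g.f a) = (Om.ρ s t h).g.f ((oPF s).g.f a)
  g : ∀ i, (S.cd i).Hm X
  γ : ∀ t i, NMp (g i) (S.nd t i) (PF.Y t)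
  γO : ∀ t i, NDga.Hom (S.O t i) (Om.Y t).D
  colB : CCol S.C S.β X.C g
  col : ∀ t, IsCol (S.D t) (fun i j h => S.r t t i j le_rfl h) (PF.Y t).D (fun i => (γ t i).g)
  colO : ∀ t, IsCol (S.O t) (fun i j h => S.σ t t i j le_rfl h) (Om.Y t).D (γO t)
  gr_γ : ∀ t i w, (oPF t).g.f ((γ t i).g.f w) = (γO t i).f ((S.rO t i).f w)
  σ_γ : ∀ s t h i j (hij : i ≤ j) w,
    (Om.ρ s t h).g.f ((γO s i).f w) = (γO t j).f ((S.σ s t i j h hij).f w)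

namespace GS

variable {S : PSys.{w, u₁, u₂, u₂, v} k ι} (Γ : GS.{w, v, x} S)

theorem zp (t : ℝ) : Zp (Γ.PF.Y t) (Γ.oPF t).g := fun m a ha => by
  rw [(Γ.oPF t).ev, Γ.ε_van m a ha, map_zero]

/-- the plain germs, in 670's form -/
def ger : Ger S (fun t => (Γ.PF.Y t).D) (fun t => (Γ.Om.Y t).D) (fun s t h => (Γ.Om.ρ s t h).g)
    (fun t => (Γ.oPF t).g) where
  γ t i := (Γ.γ t i).g
  γO := Γ.γO
  col t := V670.IsCol.of754 (Γ.col t)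
  colO t := V670.IsCol.of754 (Γ.colO t)
  gr_γ := Γ.gr_γ
  σ_γ := Γ.σ_γ
  σσ t i j l h h' w := (Γ.colO t).ff i j l h h' w

variable (hZ : S.Zps) {X₀ : CD.{u} k} (T : Tw X₀) (K : S.Cone X₀) (c : X₀.Hm Γ.X)
  (hc : ∀ i a, (Γ.g i).f ((K.u i).f a) = c.f a)

/-- the restriction of the tower to the based loops -/
def rT (t : ℝ) : NDga.Hom ((T.push c).obj (Γ.PF.Y t)).D (Γ.Om.Y t).D :=
  tz (T.push c) (Γ.PF.Y t) (Γ.oPF t).g (Γ.zp t)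

/-- the germs of the system of a tower -/
def gerT : Ger (PSys.tw hZ T K) (fun t => ((T.push c).obj (Γ.PF.Y t)).D)
    (fun t => (Γ.Om.Y t).D) (fun s t h => (Γ.Om.ρ s t h).g) (Γ.rT T c) :=
  Γ.ger.tw hZ T K Γ.g c hc Γ.γ (fun _ _ => rfl) Γ.zp

theorem rT_ρ (s t : ℝ) (h : t ≤ s) (a : ((T.push c).obj (Γ.PF.Y s)).A) :
    (Γ.rT T c t).f (((T.push c).omap (Γ.PF.ρ s t h)).g.f a) =
      (Γ.Om.ρ s t h).g.f ((Γ.rT T c s).f a) :=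
  tz_omap (T.push c) (Γ.PF.ρ s t h) _ (Γ.zp s) _ (Γ.zp t) _ (Γ.oPF_ρ s t h) a

section main

variable [CharZero k] [IsDirectedOrder ι] [Nonempty ι] {P : Pair X₀.C} {T : Tw X₀}
  {ê : P.σ → T.top.A}

include hZ K hc in
/-- **(F)** for the tower of a pair. -/
theorem hInd (h : PTw P T ê) {t₀ l : ℝ} (hL : S.Loss t₀ l) {f₂ : ℕ}
    {T₀ : Two (toDga (two_ne_zero (α := k)) Γ.X.C) f₂} (hP : P.map c = pairOf T₀)
    (h1 : ∀ t, (1 : (Γ.Om.Y t).A) ≠ 0) :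
    ∃ b₀ : ℝ, ∀ (N : ℕ) (t : ℝ), b₀ * (N + 1) ≤ t →
      ∀ β₁ ∈ ((T.push c).obj (Γ.PF.Y t)).D.deg (2 * P.n₁),
      ∀ β₂ ∈ ((T.push c).obj (Γ.PF.Y t)).D.deg (2 * P.n₂),
      ((T.push c).obj (Γ.PF.Y t)).D.d β₁ =
        ((T.push c).obj (Γ.PF.Y t)).ev.f ((T.map c).f h.y₁) →
      ((T.push c).obj (Γ.PF.Y t)).D.d β₂ =
        ((T.push c).obj (Γ.PF.Y t)).ev.f ((T.map c).f h.y₂) →
      NIndep (Γ.Om.Y t).D ((Γ.rT T c t).f β₁) ((Γ.rT T c t).f β₂) (2 * P.n₁) (2 * P.n₂) N := by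
  have h2 : (2 : k) ≠ 0 := two_ne_zero
  have hm : Even (2 * P.n₁) := even_two_mul P.n₁
  -- the classes on the germs of the base
  have hy1 := V706.y₁_mem h c
  have hd1 := V706.y₁_d h c
  have hy2 := V706.y₂_mem h c
  have hd2 := V706.y₂_d h c
  have hcen : ∀ (t : ℝ) b, ((T.push c).obj (Γ.PF.Y t)).ev.f ((T.map c).f h.y₁) * b =
      ((T.push c).obj (Γ.PF.Y t)).D.sg b * ((T.push c).obj (Γ.PF.Y t)).ev.f ((T.map c).f h.y₁) :=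
    fun t b => ((T.push c).obj (Γ.PF.Y t)).ev.central_odd hy1 hm.add_one b
  have hcen2 : ∀ (t : ℝ) b, ((T.push c).obj (Γ.PF.Y t)).ev.f ((T.map c).f h.y₂) * b =
      ((T.push c).obj (Γ.PF.Y t)).D.sg b * ((T.push c).obj (Γ.PF.Y t)).ev.f ((T.map c).f h.y₂) :=
    fun t b => ((T.push c).obj (Γ.PF.Y t)).ev.central_odd hy2 (even_two_mul P.n₂).add_one b
  have hγ : ∀ t i, ((Γ.gerT hZ T K c hc).γ t i).f (((PSys.tw hZ T K).φ t i).f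
      ((yTw hZ K h).y i)) = ((T.push c).obj (Γ.PF.Y t)).ev.f ((T.map c).f h.y₁) := fun t i => by
    refine ((ntri T (K.u i) c (Γ.g i) (hc i) (Γ.γ t i)).ev _).trans ?_
    exact congrArg _ (tri_map T (K.u i) c (Γ.g i) (hc i) h.y₁)
  have hγ2 : ∀ t i, ((Γ.gerT hZ T K c hc).γ t i).f (((PSys.tw hZ T K).φ t i).f
      ((T.map (K.u i)).f h.y₂)) = ((T.push c).obj (Γ.PF.Y t)).ev.f ((T.map c).f h.y₂) :=
    fun t i => by
    refine ((ntri T (K.u i) c (Γ.g i) (hc i) (Γ.γ t i)).ev _).trans ?_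
    exact congrArg _ (tri_map T (K.u i) c (Γ.g i) (hc i) h.y₂)
  have h0 : ∀ t, (Γ.rT T c t).f (((T.push c).obj (Γ.PF.Y t)).ev.f ((T.map c).f h.y₁)) = 0 :=
    fun t => zp_tz (T.push c) (Γ.PF.Y t) (Γ.oPF t).g (Γ.zp t) _ _ hy1
  have hpos : 0 < 2 * P.n₁ := by
    have := P.n₁_pos
    omega
  exact hInd_pol hm (even_two_mul P.n₂) hpos h2 (Γ.gerT hZ T K c hc) (yTw hZ K h)
    (etaTw hZ K h hc Γ.colB hP) (etaPol hZ K h hc Γ.colB hP h2) (fun _ => rfl)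
    (fun i => (T.map (K.u i)).f h.y₂) (fun _ => rfl) (PSys.Loss.tw hZ T K hL)
    (fun s t h' => ((T.push c).omap (Γ.PF.ρ s t h')).g) (Γ.rT_ρ T c)
    (fun t => ((T.push c).obj (Γ.PF.Y t)).ev.f ((T.map c).f h.y₁))
    (fun t => ((T.push c).obj (Γ.PF.Y t)).ev.f ((T.map c).f h.y₂))
    (fun s t h' => ((T.push c).omap (Γ.PF.ρ s t h')).ev _)
    (fun s t h' => ((T.push c).omap (Γ.PF.ρ s t h')).ev _)
    (fun t => ((T.push c).obj (Γ.PF.Y t)).ev.deg' hy1)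
    (fun t => ((T.push c).obj (Γ.PF.Y t)).ev.d_closed hd1) hcen hcen2 hγ hγ2 h0 h1

include hZ K hc in
/-- **the hypothesis `hInd` of `VS.vend`** -/
theorem hInd' (h : PTw P T ê) {t₀ l : ℝ} (hL : S.Loss t₀ l) {f₂ : ℕ}
    {T₀ : Two (toDga (two_ne_zero (α := k)) Γ.X.C) f₂} (hP : P.map c = pairOf T₀)
    (h1 : ∀ t, (1 : (Γ.Om.Y t).A) ≠ 0) {ω : (T.push c).top.Hm Γ.Xb}
    (hω0 : ∀ j, ω.f ((T.map c).f (ê j)) = 0) :
    ∃ b₀ : ℝ, ∀ (N : ℕ) (t : ℝ), b₀ * (N + 1) ≤ t →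
      ∀ β₁ ∈ ((T.push c).obj (Γ.PF.Y t)).D.deg (2 * P.n₁),
      ∀ β₂ ∈ ((T.push c).obj (Γ.PF.Y t)).D.deg (2 * P.n₂),
      ((T.push c).obj (Γ.PF.Y t)).D.d β₁ =
        ((T.push c).obj (Γ.PF.Y t)).ev.f (PTw.y₁ (push h c)) →
      ((T.push c).obj (Γ.PF.Y t)).D.d β₂ =
        ((T.push c).obj (Γ.PF.Y t)).ev.f (PTw.y₂ (push h c)) →
      ∀ oPF : NMp ω ((T.push c).obj (Γ.PF.Y t)) (Γ.Om.Y t),
        (∀ a, oPF.g.f (((T.push c).inj (Γ.PF.Y t)).f a) = (Γ.oPF t).g.f a) →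
        NIndep (Γ.Om.Y t).D (oPF.g.f β₁) (oPF.g.f β₂) (2 * P.n₁) (2 * P.n₂) N := by
  obtain ⟨b₀, hb⟩ := Γ.hInd hZ K c hc h hL hP h1
  refine ⟨b₀, fun N t ht β₁ hβ₁ β₂ hβ₂ hd₁ hd₂ oPF ho => ?_⟩
  have e := fun a => V670.tz_eq (push h c) hω0 (Γ.oPF t) (Γ.zp t) oPF ho a
  rw [e β₁, e β₂]
  exact hb N t ht β₁ hβ₁ β₂ hβ₂ (by rw [hd₁, push_y₁]) (by rw [hd₂, push_y₂])

end main

end GS

end Vale.Agent.P216.V754
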