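import Vale.Agent.P216.V609.Cdga
import Vale.Agent.P216.V609.Growth
import Vale.Agent.P216.H787.Cls

/-!
# P216-V, V7 (7c): comparison of the cdga of a space with its list cochains

`WData C X`: a chain map `W` from the list cochains of `X` to the cdga `C` which is surjective on
cohomology.  `card_le_rkres`: the rank of `H^n(C_Y) → H^n(C_X)` is at most the rank of
`H^n(Y) → H^n(X)`.
-/

open Module (rank)

namespace Vale.Agent.P216.V754

open AS GM B64 B609 H494 L250 V609
open Vale.Agent.P216.H288
open Vale.Agent.P216.Sl (CocL ExL cls cls_eq_zero)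

theorem cocL_sum' {E : Type} [PseudoMetricSpace E] {k : Type} [Field k] {X : Set E} {n : ℕ}
    {ι : Type} (s : Finset ι) {f : ι → List E → k} (hf : ∀ i ∈ s, CocL X n (f i)) :
    CocL X n fun l => ∑ i ∈ s, f i l := by
  classical
  induction s using Finset.induction_on with
  | empty =>
    refine ⟨1, one_pos, fun l _ _ => ?_⟩
    simp only [Finset.sum_empty]
    exact PS.dl_zero_fun l
  | insert a s ha ih =>
    have h1 : (fun l => ∑ i ∈ insert a s, f i l) = fun l => f a l + ∑ i ∈ s, f i l := by
      funext l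
      rw [Finset.sum_insert ha]
    rw [h1]
    exact Sl.CocL.add (hf a (Finset.mem_insert_self _ _))
      (ih fun i hi => hf i (Finset.mem_insert_of_mem hi))

theorem cls_sum' {E : Type} [PseudoMetricSpace E] {k : Type} [Field k] {X : Set E} {n : ℕ}
    {ι : Type} (s : Finset ι) (f : ι → List E → k) (hf : ∀ i, CocL X n (f i)) (a : ι → k) :
    ∑ i ∈ s, a i • cls (a0 E) (c0 k) (f i) (hf i) =
      cls (a0 E) (c0 k) (fun l => ∑ i ∈ s, a i * f i l)
        (cocL_sum' s fun i _ => Sl.CocL.smul (a i) (hf i)) := by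
  classical
  induction s using Finset.induction_on with
  | empty =>
    rw [Finset.sum_empty, eq_comm, cls_eq_zero]
    refine ⟨fun _ => 0, fun _ _ => rfl, 1, one_pos, fun l _ _ => ?_⟩
    rw [PS.dl_zero_fun]
    simp
  | insert b s hb ih =>
    rw [Finset.sum_insert hb, ih, Sl.cls_smul, Sl.cls_add]
    have h1 : (fun l => a b * f b l + ∑ i ∈ s, a i * f i l) =
        fun l => ∑ i ∈ insert b s, a i * f i l := by
      funext l
      rw [Finset.sum_insert hb]
    congr 1

/-- A chain map from the list cochains of `X` to the dga `C`, surjective on cohomology. -/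
structure WData {k : Type} [Field k] {B : Type*} [Ring B] [Algebra k B] (C : Cdga k B)
    {E : Type} [PseudoMetricSpace E] (X : Set E) where
  W : ℕ → (List E → k) →ₗ[k] B
  mem : ∀ n f, W n f ∈ C.deg n
  d : ∀ n f, C.d (W n f) = W (n + 1) (Sl.dl f)
  congr : ∀ n f g, (∃ ε > 0, ∀ l, l.length = n + 1 → PS.SmL X ε l → f l = g l) → W n f = W n g
  surj : ∀ n z, z ∈ C.Z n → ∃ f, CocL X n f ∧ z - W n f ∈ C.B n

variable {k : Type} [Field k] {B B' : Type*} [Ring B] [Algebra k B] [Ring B'] [Algebra k B']
  {E : Type} [PseudoMetricSpace E] {X Y : Set E}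

theorem WData.exact {C : Cdga k B} (w : WData C X) {n : ℕ} {f : List E → k} (h : ExL X n f) :
    w.W n f ∈ C.B n := by
  obtain ⟨g, hg, ε, hε, h⟩ := h
  cases n with
  | zero =>
    have h1 : w.W 0 f = w.W 0 0 := by
      refine w.congr 0 f 0 ⟨ε, hε, fun l hl hs => ?_⟩
      rw [h l hl hs, show g = fun _ => 0 from funext (hg rfl), PS.dl_zero_fun]
      rfl
    rw [h1, map_zero]
    exact Submodule.zero_mem _
  | succ n =>
    have h1 : w.W (n + 1) f = w.W (n + 1) (Sl.dl g) := w.congr _ _ _ ⟨ε, hε, h⟩
    rw [h1, ← w.d]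
    exact ⟨_, w.mem n g, rfl⟩

/-- **(7c)** the rank of the restriction of a cdga is at most the rank of the restriction of list
cochains. -/
theorem card_le_rkres (h : X ⊆ Y) {C : Cdga k B} {C' : Cdga k B'} (wY : WData C Y)
    (wX : WData C' X) (φ : Cdga.Hom C C') (hφ : ∀ n f, φ.f (wY.W n f) = wX.W n f) {n : ℕ}
    {ι : Type} [Fintype ι] (z : ι → B) (hz : ∀ i, z i ∈ C.Z n)
    (hi : ∀ a : ι → k, ∑ i, a i • φ.f (z i) ∈ C'.B n → a = 0) :
    (Fintype.card ι : Cardinal) ≤ rkres k h n := by
  classical
  choose f hf hzf using fun i => wY.surj n (z i) (hz i)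
  have h1 : LinearIndependent k fun i => hres k h n (cls (a0 E) (c0 k) (f i) (hf i)) := by
    rw [Fintype.linearIndependent_iff]
    intro a ha
    have h2 : ∑ i, a i • cls (a0 E) (c0 k) (f i) ((hf i).mono h) = 0 := ha
    rw [cls_sum' Finset.univ f (fun i => (hf i).mono h) a, cls_eq_zero] at h2
    have h3 := wX.exact h2
    have h4 : (fun l => ∑ i, a i * f i l) = ∑ i, a i • f i := by
      funext l
      simp
    rw [h4, map_sum] at h3
    have h5 : a = 0 := by
      refine hi a ?_
      have h6 : ∑ i, a i • φ.f (z i) = ∑ i, wX.W n (a i • f i) +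
          ∑ i, a i • φ.f (z i - wY.W n (f i)) := by
        rw [← Finset.sum_add_distrib]
        refine Finset.sum_congr rfl fun i _ => ?_
        rw [map_smul, map_sub, hφ, smul_sub]
        abel
      rw [h6]
      exact Submodule.add_mem _ h3 (Submodule.sum_mem _ fun i _ =>
        Submodule.smul_mem _ _ (φ.map_B (hzf i)))
    exact fun i => congrFun h5 i
  have h2 : LinearIndependent k fun i => (⟨hres k h n (cls (a0 E) (c0 k) (f i) (hf i)),
      ⟨_, rfl⟩⟩ : LinearMap.range (hres k h n)) := by
    rw [← LinearMap.linearIndependent_iff (Submodule.subtype _) (Submodule.ker_subtype _)]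
    exact h1
  have h3 := h2.cardinal_le_rank
  rwa [Cardinal.mk_fintype] at h3

end Vale.Agent.P216.V754
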