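import Vale.Agent.P216.V775.NTower

/-!
# P216-V, F-COL: base change triangles of towers

`φ : X → Y`, `χ : X → Z`, `ψ : Y → Z` with `ψ φ = χ`. `tri T φ χ ψ h : (T.push φ).top → (T.push χ).top`,
`ntri` the same for the towers over non-commutative algebras. `exZ`, `tz`: all the generators go to
zero.
-/

universe u v w u' v' u'' v''

namespace Vale.Agent.P216.V754

open Vale.Agent.P216.V609 Vale.Agent.P216.V775

variable {k : Type w} [Field k]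

/-- **base change triangle** -/
def tri : {X : CD.{u} k} → (T : Tw X) → {Y : CD.{v} k} → {Z : CD.{v'} k} → (φ : X.Hm Y) →
    (χ : X.Hm Z) → (ψ : Y.Hm Z) → (∀ a, ψ.f (φ.f a) = χ.f a) → (T.push φ).top.Hm (T.push χ).top
  | _, .nil _, _, _, _, _, ψ, _ => ψ
  | _, .cons _ _ hl x hx hdx T, _, _, φ, χ, ψ, h =>
    tri T (φ.ex hl hx hdx) (χ.ex hl hx hdx)
      (ψ.exMap hl (φ.deg hx) (φ.d_eq hdx) (χ.deg hx) (χ.d_eq hdx) (h x))
      (fun a => Ex.ext (h a.1) (h a.2))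

theorem tri_map {X : CD.{u} k} (T : Tw X) {Y : CD.{v} k} {Z : CD.{v'} k} (φ : X.Hm Y)
    (χ : X.Hm Z) (ψ : Y.Hm Z) (h : ∀ a, ψ.f (φ.f a) = χ.f a) (a : T.top.A) :
    (tri T φ χ ψ h).f ((T.map φ).f a) = (T.map χ).f a := by
  induction T generalizing Y Z with
  | nil X => exact h a
  | cons X l hl x hx hdx T ih =>
    exact ih (φ.ex hl hx hdx) (χ.ex hl hx hdx)
      (ψ.exMap hl (φ.deg hx) (φ.d_eq hdx) (χ.deg hx) (χ.d_eq hdx) (h x))
      (fun a => Ex.ext (h a.1) (h a.2)) a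

theorem tri_inc {X : CD.{u} k} (T : Tw X) {Y : CD.{v} k} {Z : CD.{v'} k} (φ : X.Hm Y)
    (χ : X.Hm Z) (ψ : Y.Hm Z) (h : ∀ a, ψ.f (φ.f a) = χ.f a) (a : Y.A) :
    (tri T φ χ ψ h).f ((T.push φ).inc.f a) = (T.push χ).inc.f (ψ.f a) := by
  induction T generalizing Y Z with
  | nil X => rfl
  | cons X l hl x hx hdx T ih =>
    refine (ih (φ.ex hl hx hdx) (χ.ex hl hx hdx)
      (ψ.exMap hl (φ.deg hx) (φ.d_eq hdx) (χ.deg hx) (χ.d_eq hdx) (h x))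
      (fun a => Ex.ext (h a.1) (h a.2)) (Ex.inl Y.C a)).trans ?_
    exact congrArg (T.push (χ.ex hl hx hdx)).inc.f (Ex.ext rfl (map_zero _))

theorem tri_tri {X : CD.{u} k} (T : Tw X) {Y : CD.{v} k} {Z : CD.{v'} k} {W : CD.{v''} k}
    (φ : X.Hm Y) (χ : X.Hm Z) (ω : X.Hm W) (ψ : Y.Hm Z) (ψ' : Z.Hm W) (ψ'' : Y.Hm W)
    (h : ∀ a, ψ.f (φ.f a) = χ.f a) (h' : ∀ a, ψ'.f (χ.f a) = ω.f a)
    (h'' : ∀ a, ψ''.f (φ.f a) = ω.f a) (hc : ∀ a, ψ'.f (ψ.f a) = ψ''.f a)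
    (a : (T.push φ).top.A) :
    (tri T χ ω ψ' h').f ((tri T φ χ ψ h).f a) = (tri T φ ω ψ'' h'').f a := by
  induction T generalizing Y Z W with
  | nil X => exact hc a
  | cons X l hl x hx hdx T ih =>
    exact ih (φ.ex hl hx hdx) (χ.ex hl hx hdx) (ω.ex hl hx hdx)
      (ψ.exMap hl (φ.deg hx) (φ.d_eq hdx) (χ.deg hx) (χ.d_eq hdx) (h x))
      (ψ'.exMap hl (χ.deg hx) (χ.d_eq hdx) (ω.deg hx) (ω.d_eq hdx) (h' x))
      (ψ''.exMap hl (φ.deg hx) (φ.d_eq hdx) (ω.deg hx) (ω.d_eq hdx) (h'' x))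
      (fun a => Ex.ext (h a.1) (h a.2)) (fun a => Ex.ext (h' a.1) (h' a.2))
      (fun a => Ex.ext (h'' a.1) (h'' a.2)) (fun a => Ex.ext (hc a.1) (hc a.2)) a

/-- the triangle over the identity -/
theorem tri_id {X : CD.{u} k} (T : Tw X) {Y : CD.{v} k} (φ : X.Hm Y) (ψ : Y.Hm Y)
    (h : ∀ a, ψ.f (φ.f a) = φ.f a) (hid : ∀ a, ψ.f a = a) (a : (T.push φ).top.A) :
    (tri T φ φ ψ h).f a = a := by
  induction T generalizing Y with
  | nil X => exact hid a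
  | cons X l hl x hx hdx T ih =>
    exact ih (φ.ex hl hx hdx)
      (ψ.exMap hl (φ.deg hx) (φ.d_eq hdx) (φ.deg hx) (φ.d_eq hdx) (h x))
      (fun a => Ex.ext (h a.1) (h a.2)) (fun a => Ex.ext (hid a.1) (hid a.2)) a

/-! ### Non-commutative algebras -/

/-- one extension of a morphism over a triangle -/
def nex {X : CD.{u} k} {Y : CD.{v} k} {Z : CD.{v'} k} {φ : X.Hm Y} {χ : X.Hm Z} {ψ : Y.Hm Z}
    {A : ND.{u'} Y} {B : ND.{u''} Z} (g : NMp ψ A B) {l : ℕ} (hl : Odd l) {x : X.A}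
    (hx : x ∈ X.C.deg (l + 1)) (hdx : X.C.d x = 0) (h : ψ.f (φ.f x) = χ.f x) :
    NMp (ψ.exMap hl (φ.deg hx) (φ.d_eq hdx) (χ.deg hx) (χ.d_eq hdx) h)
      (A.ex hl (φ.deg hx) (φ.d_eq hdx)) (B.ex hl (χ.deg hx) (χ.d_eq hdx)) where
  g := A.ev.exMap B.ev g.g hl (φ.deg hx) (φ.d_eq hdx) (χ.deg hx) (χ.d_eq hdx) (by rw [g.ev, h])
  ev a := NEx.ext (g.ev a.1) (g.ev a.2)

/-- **base change triangle** for the towers over non-commutative algebras -/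
def ntri : {X : CD.{u} k} → (T : Tw X) → {Y : CD.{v} k} → {Z : CD.{v'} k} → (φ : X.Hm Y) →
    (χ : X.Hm Z) → (ψ : Y.Hm Z) → (h : ∀ a, ψ.f (φ.f a) = χ.f a) → {A : ND.{u'} Y} →
    {B : ND.{u''} Z} → NMp ψ A B →
    NMp (tri T φ χ ψ h) ((T.push φ).obj A) ((T.push χ).obj B)
  | _, .nil _, _, _, _, _, _, _, _, _, g => g
  | _, .cons _ _ hl x hx hdx T, _, _, φ, χ, ψ, h, _, _, g =>
    ntri T (φ.ex hl hx hdx) (χ.ex hl hx hdx)
      (ψ.exMap hl (φ.deg hx) (φ.d_eq hdx) (χ.deg hx) (χ.d_eq hdx) (h x))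
      (fun a => Ex.ext (h a.1) (h a.2)) (nex g hl hx hdx (h x))

theorem ntri_inj {X : CD.{u} k} (T : Tw X) {Y : CD.{v} k} {Z : CD.{v'} k} (φ : X.Hm Y)
    (χ : X.Hm Z) (ψ : Y.Hm Z) (h : ∀ a, ψ.f (φ.f a) = χ.f a) {A : ND.{u'} Y}
    {B : ND.{u''} Z} (g : NMp ψ A B) (a : A.A) :
    (ntri T φ χ ψ h g).g.f (((T.push φ).inj A).f a) = ((T.push χ).inj B).f (g.g.f a) := by
  induction T generalizing Y Z with
  | nil X => rfl
  | cons X l hl x hx hdx T ih =>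
    refine (ih (φ.ex hl hx hdx) (χ.ex hl hx hdx)
      (ψ.exMap hl (φ.deg hx) (φ.d_eq hdx) (χ.deg hx) (χ.d_eq hdx) (h x))
      (fun a => Ex.ext (h a.1) (h a.2)) (nex g hl hx hdx (h x)) (NEx.inl A.D a)).trans ?_
    exact congrArg ((T.push (χ.ex hl hx hdx)).inj (B.ex hl (χ.deg hx) (χ.d_eq hdx))).f
      (NEx.ext rfl (map_zero _))

theorem ntri_ntri {X : CD.{u} k} (T : Tw X) {Y : CD.{v} k} {Z : CD.{v'} k} {W : CD.{v''} k}
    (φ : X.Hm Y) (χ : X.Hm Z) (ω : X.Hm W) (ψ : Y.Hm Z) (ψ' : Z.Hm W) (ψ'' : Y.Hm W)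
    (h : ∀ a, ψ.f (φ.f a) = χ.f a) (h' : ∀ a, ψ'.f (χ.f a) = ω.f a)
    (h'' : ∀ a, ψ''.f (φ.f a) = ω.f a) {A : ND.{u'} Y} {B : ND.{u'} Z} {C : ND.{u'} W}
    (g : NMp ψ A B) (g' : NMp ψ' B C) (g'' : NMp ψ'' A C)
    (hg : ∀ a, g'.g.f (g.g.f a) = g''.g.f a) (a : ((T.push φ).obj A).A) :
    (ntri T χ ω ψ' h' g').g.f ((ntri T φ χ ψ h g).g.f a) = (ntri T φ ω ψ'' h'' g'').g.f a := by
  induction T generalizing Y Z W with
  | nil X => exact hg a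
  | cons X l hl x hx hdx T ih =>
    exact ih (φ.ex hl hx hdx) (χ.ex hl hx hdx) (ω.ex hl hx hdx)
      (ψ.exMap hl (φ.deg hx) (φ.d_eq hdx) (χ.deg hx) (χ.d_eq hdx) (h x))
      (ψ'.exMap hl (χ.deg hx) (χ.d_eq hdx) (ω.deg hx) (ω.d_eq hdx) (h' x))
      (ψ''.exMap hl (φ.deg hx) (φ.d_eq hdx) (ω.deg hx) (ω.d_eq hdx) (h'' x))
      (fun a => Ex.ext (h a.1) (h a.2)) (fun a => Ex.ext (h' a.1) (h' a.2))
      (fun a => Ex.ext (h'' a.1) (h'' a.2)) (nex g hl hx hdx (h x)) (nex g' hl hx hdx (h' x))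
      (nex g'' hl hx hdx (h'' x)) (fun a => NEx.ext (hg a.1) (hg a.2)) a

/-! ### All the generators go to zero -/

section

variable {A A' : Type*} [Ring A] [Algebra k A] [Ring A'] [Algebra k A']
  {D : NDga k A} {O : NDga k A'}

/-- `e ↦ 0` -/
def _root_.Vale.Agent.P216.V609.NDga.Hom.exZ (r : NDga.Hom D O) {l : ℕ} (hl : Odd l) {x : A}
    (hx : x ∈ D.deg (l + 1)) (hdx : D.d x = 0) (hxc : ∀ b, x * b = b * x) (h : r.f x = 0) :
    NDga.Hom (D.ex hl hx hdx hxc) O where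
  f := AlgHom.ofLinearMap
    { toFun := fun a => r.f a.1
      map_add' := fun a b => by simp
      map_smul' := fun c a => by simp } (by simp) (fun a b => by simp)
  deg h' := r.deg h'.1
  sg a := r.sg a.1
  d a := by
    show r.f (D.d a.1 + D.sg a.2 * x) = O.d (r.f a.1)
    rw [map_add, map_mul, h, mul_zero, add_zero, r.d]

@[simp] theorem _root_.Vale.Agent.P216.V609.NDga.Hom.exZ_apply (r : NDga.Hom D O) {l : ℕ}
    (hl : Odd l) {x : A} (hx : x ∈ D.deg (l + 1)) (hdx : D.d x = 0) (hxc : ∀ b, x * b = b * x)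
    (h : r.f x = 0) (a : NEx k D) : (r.exZ hl hx hdx hxc h).f a = r.f a.1 := rfl

end

/-- the restriction of a morphism to the base vanishes in positive degrees -/
def Zp {X : CD.{u} k} (A : ND.{u'} X) {A' : Type*} [Ring A'] [Algebra k A'] {O : NDga k A'}
    (r : NDga.Hom A.D O) : Prop := ∀ m, ∀ a ∈ X.C.deg (m + 1), r.f (A.ev.f a) = 0

theorem Zp.ex {X : CD.{u} k} {A : ND.{u'} X} {A' : Type*} [Ring A'] [Algebra k A']
    {O : NDga k A'} {r : NDga.Hom A.D O} (h : Zp A r) {l : ℕ} (hl : Odd l) {x : X.A}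
    (hx : x ∈ X.C.deg (l + 1)) (hdx : X.C.d x = 0) :
    Zp (A.ex hl hx hdx) (r.exZ hl (A.ev.deg' hx) (A.ev.d_closed hdx) (A.ev.central_succ hl hx)
      (h l x hx)) := fun m a ha => h m a.1 ha.1

/-- **all the generators go to zero** -/
def tz : {X : CD.{u} k} → (T : Tw X) → (A : ND.{u'} X) → {A' : Type v'} → [Ring A'] →
    [Algebra k A'] → {O : NDga k A'} → (r : NDga.Hom A.D O) → Zp A r → NDga.Hom (T.obj A).D O
  | _, .nil _, _, _, _, _, _, r, _ => r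
  | _, .cons _ _ hl _ hx hdx T, A, _, _, _, _, _, h => tz T (A.ex hl hx hdx) _ (h.ex hl hx hdx)

theorem tz_inj {X : CD.{u} k} (T : Tw X) (A : ND.{u'} X) {A' : Type v'} [Ring A'] [Algebra k A']
    {O : NDga k A'} (r : NDga.Hom A.D O) (h : Zp A r) (a : A.A) :
    (tz T A r h).f ((T.inj A).f a) = r.f a := by
  induction T with
  | nil X => rfl
  | cons X l hl x hx hdx T ih =>
    exact ih (A.ex hl hx hdx) _ (h.ex hl hx hdx) (NEx.inl A.D a)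

theorem zp_tz {X : CD.{u} k} (T : Tw X) (A : ND.{u'} X) {A' : Type v'} [Ring A'] [Algebra k A']
    {O : NDga k A'} (r : NDga.Hom A.D O) (h : Zp A r) : Zp (T.obj A) (tz T A r h) := by
  induction T with
  | nil X => exact h
  | cons X l hl x hx hdx T ih => exact ih (A.ex hl hx hdx) _ (h.ex hl hx hdx)

/-- naturality of `tz` -/
theorem tz_ntri {X : CD.{u} k} (T : Tw X) {Y : CD.{v} k} {Z : CD.{v'} k} (φ : X.Hm Y)
    (χ : X.Hm Z) (ψ : Y.Hm Z) (h : ∀ a, ψ.f (φ.f a) = χ.f a) {A : ND.{u'} Y}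
    {B : ND.{u'} Z} (g : NMp ψ A B) {A' A'' : Type v''} [Ring A'] [Algebra k A'] [Ring A'']
    [Algebra k A''] {O : NDga k A'} {O' : NDga k A''} (r : NDga.Hom A.D O) (hr : Zp A r)
    (r' : NDga.Hom B.D O') (hr' : Zp B r') (s : NDga.Hom O O')
    (hs : ∀ a, r'.f (g.g.f a) = s.f (r.f a)) (a : ((T.push φ).obj A).A) :
    (tz (T.push χ) B r' hr').f ((ntri T φ χ ψ h g).g.f a) = s.f ((tz (T.push φ) A r hr).f a) := by
  induction T generalizing Y Z with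
  | nil X => exact hs a
  | cons X l hl x hx hdx T ih =>
    exact ih (φ.ex hl hx hdx) (χ.ex hl hx hdx)
      (ψ.exMap hl (φ.deg hx) (φ.d_eq hdx) (χ.deg hx) (χ.d_eq hdx) (h x))
      (fun a => Ex.ext (h a.1) (h a.2)) (nex g hl hx hdx (h x)) _
      (hr.ex hl (φ.deg hx) (φ.d_eq hdx)) _ (hr'.ex hl (χ.deg hx) (χ.d_eq hdx))
      (fun a => hs a.1) a

end Vale.Agent.P216.V754
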