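import Vale.Agent.P216.V609.NTwo

/-!
# P216-V, D6 (FIN): independence of the monomials from `push`

`PushHyp ι φ ψ q η`: the conclusion of `push` between two levels: if `d w = η v`, `d v = η v'` and
the restriction `φ w` to the based loops is exact, then `ψ (φ v)` (the restriction of `v` to the
based loops of a lower level) is exact.

`nindep_of_push`: if `d β₁ = y₁` and `d β₂ = y₂`, and `PushHyp` holds for `y₁` and, after adding a
polynomial generator `b`, `d b = y₁`, for `y₂`, then the monomials in the restrictions of `β₁`, `β₂`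
to the based loops are independent.
-/

open Submodule Finset

namespace Vale.Agent.P216.V754

open V609

variable {k : Type*} [Field k]

/-- the polynomial with the coefficients `s` in `x`, `y` -/
def MM {A : Type*} [Ring A] [Algebra k A] (x y : A) (s : ℕ → ℕ → k) (N : ℕ) : A :=
  ∑ i ∈ range (N + 1), ∑ j ∈ range (N + 1), s i j • (x ^ i * y ^ j)

/-- the coefficients of the derivative in the second variable -/
def De (s : ℕ → ℕ → k) (i j : ℕ) : k := (j + 1 : ℕ) * s i (j + 1)

/-- homogeneous of degree `n`, total degree at most `N` -/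
def Ho (p q N n : ℕ) (s : ℕ → ℕ → k) : Prop := ∀ i j, s i j ≠ 0 → i + j ≤ N ∧ i * p + j * q = n

theorem Ho.de {p q N n : ℕ} {s : ℕ → ℕ → k} (h : Ho p q (N + 1) (n + q) s) :
    Ho p q N n (De s) := by
  intro i j hij
  have h1 : s i (j + 1) ≠ 0 := fun h0 => hij (by rw [De, h0, mul_zero])
  obtain ⟨h2, h3⟩ := h i (j + 1) h1
  refine ⟨by omega, ?_⟩
  have : (j + 1) * q = j * q + q := by ring
  omega

theorem Ho.mono {p q N N' n : ℕ} {s : ℕ → ℕ → k} (h : Ho p q N n s) (hN : N ≤ N') :
    Ho p q N' n s := fun i j hij => ⟨(h i j hij).1.trans hN, (h i j hij).2⟩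

theorem map_MM {A A' : Type*} [Ring A] [Algebra k A] [Ring A'] [Algebra k A'] (f : A →ₐ[k] A')
    (x y : A) (s : ℕ → ℕ → k) (N : ℕ) : f (MM x y s N) = MM (f x) (f y) s N := by
  simp only [MM, map_sum, map_smul, map_mul, map_pow]

/-- the range of the sum does not matter -/
theorem MM_mono {A : Type*} [Ring A] [Algebra k A] (x y : A) {s : ℕ → ℕ → k} {N N' : ℕ}
    (hs : ∀ i j, s i j ≠ 0 → i + j ≤ N) (hN : N ≤ N') : MM x y s N' = MM x y s N := by
  have hz : ∀ i j, N < i + j → s i j = 0 := fun i j hij => by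
    by_contra h0
    exact absurd (hs i j h0) (by omega)
  unfold MM
  symm
  have e2 : ∀ i, ∑ j ∈ range (N + 1), s i j • (x ^ i * y ^ j) =
      ∑ j ∈ range (N' + 1), s i j • (x ^ i * y ^ j) := fun i =>
    sum_subset (range_mono (by omega)) fun j _ hj => by
      rw [hz i j (by simp only [mem_range] at hj; omega), zero_smul]
  simp only [e2]
  refine sum_subset (range_mono (by omega)) fun i _ hi => ?_
  refine sum_eq_zero fun j _ => ?_
  rw [hz i j (by simp only [mem_range] at hi; omega), zero_smul]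

section

variable {A : Type*} [Ring A] [Algebra k A] {C : NDga k A} {x y e : A} {p q : ℕ}

theorem MM_mem (hx : x ∈ C.deg p) (hy : y ∈ C.deg q) {s : ℕ → ℕ → k} {N n : ℕ}
    (h : ∀ i j, s i j ≠ 0 → i * p + j * q = n) : MM x y s N ∈ C.deg n := by
  refine Submodule.sum_mem _ fun i _ => Submodule.sum_mem _ fun j _ => ?_
  by_cases h0 : s i j = 0
  · rw [h0, zero_smul]
    exact Submodule.zero_mem _
  · refine Submodule.smul_mem _ _ ?_
    have h1 := C.mul_mem (C.pow_mem hx i) (C.pow_mem hy j)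
    rwa [h i j h0] at h1

/-- `d (y ^ (j + 1)) = (j + 1) e y ^ j` if `d y = e` commutes with `y` -/
theorem d_pow_succ (hy : C.sg y = y) (hd : C.d y = e) (hc : e * y = y * e) (j : ℕ) :
    C.d (y ^ (j + 1)) = ((j + 1 : ℕ) : k) • (e * y ^ j) := by
  induction j with
  | zero => simp [hd]
  | succ j ih =>
    rw [pow_succ', C.leib, hy, ih, hd, mul_smul_comm, ← mul_assoc, ← hc, mul_assoc, ← pow_succ']
    push_cast
    module

/-- **the derivative**: `d (∑ s i j x ^ i y ^ j) = e ∑ (j + 1) s i (j + 1) x ^ i y ^ j`. -/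
theorem d_MM (hx : C.sg x = x) (hdx : C.d x = 0) (hy : C.sg y = y) (hd : C.d y = e)
    (hcx : e * x = x * e) (hc : e * y = y * e) {s : ℕ → ℕ → k} {N : ℕ}
    (hs : ∀ i j, s i j ≠ 0 → j ≤ N) : C.d (MM x y s N) = e * MM x y (De s) N := by
  unfold MM
  rw [map_sum, Finset.mul_sum]
  refine sum_congr rfl fun i _ => ?_
  rw [map_sum, Finset.mul_sum, sum_range_succ' _ N, sum_range_succ _ N]
  have h0 : s i (N + 1) = 0 := by
    by_contra h
    exact absurd (hs _ _ h) (by omega)
  have hxi : C.sg (x ^ i) = x ^ i := by rw [map_pow, hx]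
  have hci : e * x ^ i = x ^ i * e := (Commute.pow_right (show Commute e x from hcx) i).eq
  have h1 : C.d (s i 0 • (x ^ i * y ^ 0)) = 0 := by
    rw [map_smul, pow_zero, mul_one, C.d_pow hdx, smul_zero]
  have h2 : e * De s i N • (x ^ i * y ^ N) = 0 := by
    rw [De, h0, mul_zero, zero_smul, mul_zero]
  rw [h1, h2, add_zero, add_zero]
  refine sum_congr rfl fun j _ => ?_
  rw [map_smul, C.leib, C.d_pow hdx, zero_mul, zero_add, hxi, d_pow_succ hy hd hc, mul_smul_comm,
    smul_smul, mul_smul_comm, ← mul_assoc, ← mul_assoc, hci, De, mul_comm (s i (j + 1))]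

end

section

variable {R A B B' : Type*} [Ring R] [Algebra k R] [Ring A] [Algebra k A] [Ring B] [Algebra k B]
  [Ring B'] [Algebra k B'] {CR : Cdga k R} {C : NDga k A} {O : NDga k B} {O' : NDga k B'}

/-- The conclusion of `push` between two levels. -/
def PushHyp (ι : CHom CR C) (φ : NDga.Hom C O) (ψ : NDga.Hom O O') (q : ℕ) (η : R) : Prop :=
  ∀ (n : ℕ) (w v v' : A), w ∈ C.deg (n + q) → v ∈ C.deg n → v' ∈ C.degS (q + 1) (n + 1) →
    C.d w = ι.f η * v → C.d v = ι.f η * v' → φ.f w ∈ O.B (n + q) → ψ.f (φ.f v) ∈ O'.B n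

/-- A relation gives its derivative, one level lower. -/
theorem der_of_push {ι : CHom CR C} {φ : NDga.Hom C O} {ψ : NDga.Hom O O'} {p q : ℕ} {η : R}
    (hP : PushHyp ι φ ψ q η) (hp : Even p) (hq : Even q) (hη : η ∈ CR.deg (q + 1)) {x y : A}
    (hx : x ∈ C.deg p) (hdx : C.d x = 0) (hy : y ∈ C.deg q) (hdy : C.d y = ι.f η)
    {s : ℕ → ℕ → k} {N n : ℕ} (hs : Ho p q (N + 1) (n + q) s)
    (hB : MM (φ.f x) (φ.f y) s (N + 1) ∈ O.B (n + q)) :
    MM (ψ.f (φ.f x)) (ψ.f (φ.f y)) (De s) N ∈ O'.B n := by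
  have hsx := C.sg_of_even hx hp
  have hsy := C.sg_of_even hy hq
  have hodd : Odd (q + 1) := hq.add_one
  have hcx : ι.f η * x = x * ι.f η := by rw [ι.central_odd hη hodd, hsx]
  have hcy : ι.f η * y = y * ι.f η := by rw [ι.central_odd hη hodd, hsy]
  have hs1 : Ho p q N n (De s) := hs.de
  have hj : ∀ i j, s i j ≠ 0 → j ≤ N + 1 := fun i j h => by have := (hs i j h).1; omega
  have hj1 : ∀ i j, De s i j ≠ 0 → j ≤ N + 1 := fun i j h => by have := (hs1 i j h).1; omega
  have h1 := d_MM (C := C) hsx hdx hsy hdy hcx hcy hj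
  have h2 := d_MM (C := C) hsx hdx hsy hdy hcx hcy hj1
  have h5 : MM x y (De (De s)) (N + 1) ∈ C.degS (q + 1) (n + 1) := by
    unfold NDga.degS
    split_ifs with h
    · refine MM_mem hx hy fun i j hij => ?_
      have h4 : De s i (j + 1) ≠ 0 := fun h0 => hij (by rw [De, h0, mul_zero])
      have h5 := (hs1 i (j + 1) h4).2
      have : (j + 1) * q = j * q + q := by ring
      omega
    · have h4 : De (De s) = fun _ _ => 0 := by
        funext i j
        by_contra hij
        have h4 : De s i (j + 1) ≠ 0 := fun h0 => hij (by rw [De, h0, mul_zero])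
        have h5 := (hs1 i (j + 1) h4).2
        have : (j + 1) * q = j * q + q := by ring
        omega
      rw [h4, mem_bot]
      simp [MM]
  have h3 := hP n (MM x y s (N + 1)) (MM x y (De s) (N + 1)) (MM x y (De (De s)) (N + 1))
    (MM_mem (C := C) hx hy fun i j h => (hs i j h).2)
    (MM_mem (C := C) hx hy fun i j h => (hs1 i j h).2) h5 h1 h2 (by rw [map_MM]; exact hB)
  rw [map_MM, map_MM, MM_mono _ _ (fun i j h => (hs1 i j h).1) (Nat.le_succ N)] at h3
  exact h3

/-- The independence of the monomials goes up one level. -/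
theorem nindep_step [CharZero k] {ψ : NDga.Hom O O'} {a b : B} {p q N : ℕ} (hp : p ≠ 0)
    (h : NIndep O' (ψ.f a) (ψ.f b) p q N)
    (h2 : ∀ n (s : ℕ → ℕ → k), Ho p q (N + 1) (n + q) s → MM a b s (N + 1) ∈ O.B (n + q) →
      MM (ψ.f a) (ψ.f b) (De s) N ∈ O'.B n)
    (h1 : ∀ i (c : k), c • a ^ (i + 1) ∈ O.B ((i + 1) * p) →
      (((i + 1 : ℕ) : k) * c) • (ψ.f a) ^ i ∈ O'.B (i * p))
    (h0 : (1 : B) ≠ 0) : NIndep O a b p q (N + 1) := by
  intro n s hs hB
  have hB' : MM a b s (N + 1) ∈ O.B n := hB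
  -- the coefficients with `0 < j` vanish
  have hj : ∀ i j, s i (j + 1) = 0 := by
    intro i j
    by_cases hn : q ≤ n
    · obtain ⟨n, rfl⟩ := Nat.exists_eq_add_of_le' hn
      have h3 := h2 n s hs hB'
      have h4 := h n (De s) (Ho.de hs) h3 i j
      rw [De, mul_eq_zero] at h4
      exact h4.resolve_left (Nat.cast_ne_zero.2 (Nat.succ_ne_zero j))
    · by_contra hij
      have h3 := (hs i (j + 1) hij).2
      have : (j + 1) * q = j * q + q := by ring
      omega
  -- at most one `i` is left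
  have hi : ∀ i, s i 0 ≠ 0 → i * p = n := fun i hi => by
    have := (hs i 0 hi).2
    omega
  intro i j
  cases j with
  | succ j => exact hj i j
  | zero =>
    by_contra hne
    have hip := hi i hne
    have hiN : i ≤ N + 1 := by have := (hs i 0 hne).1; omega
    have e1 : MM a b s (N + 1) = s i 0 • a ^ i := by
      unfold MM
      rw [sum_eq_single i]
      · rw [sum_eq_single 0]
        · rw [pow_zero, mul_one]
        · intro j _ hj0
          obtain ⟨j', rfl⟩ := Nat.exists_eq_succ_of_ne_zero hj0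
          rw [hj, zero_smul]
        · intro h; exact absurd (Finset.mem_range.2 (by omega)) h
      · intro i' _ hi'
        refine sum_eq_zero fun j _ => ?_
        cases j with
        | succ j => rw [hj, zero_smul]
        | zero =>
          by_cases h3 : s i' 0 = 0
          · rw [h3, zero_smul]
          · exact absurd (Nat.eq_of_mul_eq_mul_right (Nat.pos_of_ne_zero hp)
              ((hi i' h3).trans hip.symm)) hi'
      · intro h; exact absurd (Finset.mem_range.2 (by omega)) h
    rw [e1] at hB'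
    cases i with
    | zero =>
      rw [zero_mul] at hip
      subst hip
      have h3 : s 0 0 • (a ^ 0 : B) = 0 := hB'
      rw [pow_zero] at h3
      rcases smul_eq_zero.1 h3 with h4 | h4
      · exact hne h4
      · exact h0 h4
    | succ i =>
      rw [← hip] at hB'
      have h3 := h1 i (s (i + 1) 0) hB'
      have h4 := h (i * p) (fun i' j' => if i' = i ∧ j' = 0 then ((i + 1 : ℕ) : k) * s (i + 1) 0
        else 0) (fun i' j' hij => by
          by_cases h5 : i' = i ∧ j' = 0
          · obtain ⟨rfl, rfl⟩ := h5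
            exact ⟨by omega, by simp⟩
          · exact absurd (if_neg h5) hij) (by
        have e2 : ∑ i' ∈ range (N + 1), ∑ j' ∈ range (N + 1),
            (if i' = i ∧ j' = 0 then ((i + 1 : ℕ) : k) * s (i + 1) 0 else 0) •
              ((ψ.f a) ^ i' * (ψ.f b) ^ j') =
            (((i + 1 : ℕ) : k) * s (i + 1) 0) • (ψ.f a) ^ i := by
          rw [sum_eq_single i]
          · rw [sum_eq_single 0]
            · rw [if_pos ⟨rfl, rfl⟩, pow_zero, mul_one]
            · intro j _ hj0
              rw [if_neg (fun h => hj0 h.2), zero_smul]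
            · intro h; exact absurd (Finset.mem_range.2 (by omega)) h
          · intro i' _ hi'
            exact sum_eq_zero fun j _ => by rw [if_neg (fun h => hi' h.1), zero_smul]
          · intro h; exact absurd (Finset.mem_range.2 (by omega)) h
        rw [e2]
        exact h3) i 0
      rw [if_pos ⟨rfl, rfl⟩, mul_eq_zero] at h4
      exact hne (h4.resolve_left (Nat.cast_ne_zero.2 (Nat.succ_ne_zero i)))

/-- The base of the induction. -/
theorem nindep_zero {a b : B} {p q : ℕ} (h0 : (1 : B) ≠ 0) : NIndep O a b p q 0 := by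
  intro n s hs hB i j
  by_contra hne
  obtain ⟨h1, h2⟩ := hs i j hne
  obtain ⟨rfl, rfl⟩ : i = 0 ∧ j = 0 := by omega
  simp only [zero_mul, zero_add] at h2
  subst h2
  have h3 : ∑ i ∈ range (0 + 1), ∑ j ∈ range (0 + 1), s i j • (a ^ i * b ^ j) = s 0 0 • 1 := by
    simp
  rw [h3] at hB
  have h4 : s 0 0 • (1 : B) = 0 := hB
  rcases smul_eq_zero.1 h4 with h5 | h5
  · exact hne h5
  · exact h0 h5

end

/-- **FIN, one step**: from the two forms of `push` between the levels of `O` and `O'`. `C₁` is the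
algebra over the paths, `C₂` is `C₁ [b]`, `x = β₁ - b`. -/
theorem nindep_of_push [CharZero k] {R₁ R₂ A₁ A₂ B B' : Type*} [Ring R₁] [Algebra k R₁] [Ring R₂]
    [Algebra k R₂] [Ring A₁] [Algebra k A₁] [Ring A₂] [Algebra k A₂] [Ring B] [Algebra k B]
    [Ring B'] [Algebra k B'] {CR₁ : Cdga k R₁} {CR₂ : Cdga k R₂} {C₁ : NDga k A₁}
    {C₂ : NDga k A₂} {O : NDga k B} {O' : NDga k B'} {ι₁ : CHom CR₁ C₁} {ι₂ : CHom CR₂ C₂}
    {φ₁ : NDga.Hom C₁ O} {φ₂ : NDga.Hom C₂ O} {ψ : NDga.Hom O O'} {p q N : ℕ} (hp : Even p)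
    (hp0 : p ≠ 0) (hq : Even q) {η₁ : R₁} {η₂ : R₂} (hη₁ : η₁ ∈ CR₁.deg (p + 1))
    (hη₂ : η₂ ∈ CR₂.deg (q + 1)) (hP₁ : PushHyp ι₁ φ₁ ψ p η₁) (hP₂ : PushHyp ι₂ φ₂ ψ q η₂)
    {β₁ : A₁} (hβ₁ : β₁ ∈ C₁.deg p) (hdβ₁ : C₁.d β₁ = ι₁.f η₁) {x β₂ : A₂} (hx : x ∈ C₂.deg p)
    (hdx : C₂.d x = 0) (hβ₂ : β₂ ∈ C₂.deg q) (hdβ₂ : C₂.d β₂ = ι₂.f η₂)
    (hxβ : φ₂.f x = φ₁.f β₁) (h0 : (1 : B) ≠ 0)
    (h : NIndep O' (ψ.f (φ₁.f β₁)) (ψ.f (φ₂.f β₂)) p q N) :
    NIndep O (φ₁.f β₁) (φ₂.f β₂) p q (N + 1) := by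
  refine nindep_step hp0 h (fun n s hs hB => ?_) (fun i c hB => ?_) h0
  · have h1 := der_of_push hP₂ hp hq hη₂ hx hdx hβ₂ hdβ₂ hs (by rw [hxβ]; exact hB)
    rwa [hxβ] at h1
  · -- one variable: `x = 1`
    let s : ℕ → ℕ → k := fun i' j' => if i' = 0 ∧ j' = i + 1 then c else 0
    have hs : Ho 0 p (i + 1) (i * p + p) s := by
      intro i' j' hij
      by_cases h5 : i' = 0 ∧ j' = i + 1
      · obtain ⟨rfl, rfl⟩ := h5
        exact ⟨by omega, by ring⟩
      · exact absurd (if_neg h5) hij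
    have e1 : MM (φ₁.f 1) (φ₁.f β₁) s (i + 1) = c • (φ₁.f β₁) ^ (i + 1) := by
      unfold MM
      rw [sum_eq_single 0]
      · rw [sum_eq_single (i + 1)]
        · rw [pow_zero, one_mul]
          exact congrArg (· • _) (if_pos ⟨rfl, rfl⟩)
        · intro j _ hj0
          rw [show s 0 j = 0 from if_neg (fun h => hj0 h.2), zero_smul]
        · intro h; exact absurd (Finset.mem_range.2 (by omega)) h
      · intro i' _ hi'
        exact sum_eq_zero fun j _ => by
          rw [show s i' j = 0 from if_neg (fun h => hi' h.1), zero_smul]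
      · intro h; exact absurd (Finset.mem_range.2 (by omega)) h
    have h1 := der_of_push hP₁ (p := 0) Even.zero hp hη₁ C₁.one_mem C₁.d_one hβ₁ hdβ₁ hs
      (by rw [e1]; rwa [add_mul, one_mul] at hB)
    have e2 : MM (ψ.f (φ₁.f 1)) (ψ.f (φ₁.f β₁)) (De s) i =
        (((i + 1 : ℕ) : k) * c) • (ψ.f (φ₁.f β₁)) ^ i := by
      unfold MM
      rw [sum_eq_single 0]
      · rw [sum_eq_single i]
        · rw [pow_zero, one_mul]
          congr 1
          show ((i + 1 : ℕ) : k) * s 0 (i + 1) = _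
          rw [show s 0 (i + 1) = c from if_pos ⟨rfl, rfl⟩]
        · intro j _ hj0
          have : De s 0 j = 0 := by
            show ((j + 1 : ℕ) : k) * s 0 (j + 1) = 0
            rw [show s 0 (j + 1) = 0 from if_neg (fun h => hj0 (by omega)), mul_zero]
          rw [this, zero_smul]
        · intro h; exact absurd (Finset.mem_range.2 (by omega)) h
      · intro i' _ hi'
        refine sum_eq_zero fun j _ => ?_
        have : De s i' j = 0 := by
          show ((j + 1 : ℕ) : k) * s i' (j + 1) = 0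
          rw [show s i' (j + 1) = 0 from if_neg (fun h => hi' h.1), mul_zero]
        rw [this, zero_smul]
      · intro h; exact absurd (Finset.mem_range.2 (by omega)) h
    rwa [e2] at h1

end Vale.Agent.P216.V754
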