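import Vale.Agent.P216.V609.Growth

/-!
# P216-V, V6: linear growth of the total cohomology of the sublevels

See `V609.growth` (`Vale/Agent/P216/V609/Growth.lean`).
-/
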