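import Vale.Agent.P216.V754.HInd
import Vale.Agent.P216.V994.PInst
import Vale.Agent.P216.H977V.Plain
import Vale.Agent.P216.V921.ColInst
import Vale.Agent.P216.V893.VSInst
import Vale.Agent.P216.H929V.One

/-!
# P216-V, F-TOP: the concrete (F)

`gsPlain b i₀`: the germs of the plain system at the scales after `i₀` (the fields are those of
`V893.vs M b`). `hInd_vs`: the independence in the based loops.
-/

set_option linter.unusedSectionVars false
set_option linter.all false

open Set Filter Topology BoundedContinuousFunction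

namespace Vale.Agent.P216.V754

open Vale.Agent.P231.Fm Vale.Agent.P231.WA Vale.Agent.P216.V1 Vale.Agent.P216.V609
open Vale.Agent.P216.H285V Vale.Agent.P216.H929V Vale.Agent.P216.V775 Vale.Agent.P216.V893
open Vale.Agent.P216.V670 (PSys)

noncomputable section

variable {M : Type} [MetricSpace M]

theorem pm_id_id {E P : Type} : (pm id id : MP E P → MP E P) = id := by
  funext p
  refine Prod.ext ?_ ?_
  · exact Finsupp.mapDomain_id
  · exact List.map_id _

/-- **The germs of the plain system** at the scales after `i₀`. -/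
def gsPlain (b : M) (i₀ : Sc) : GS ((V994.plain b).sub i₀) where
  X := (vs M b).X
  Xb := (vs M b).Xb
  ε := (vs M b).ε
  ε_van := (vs M b).ε_van
  PF := (vs M b).PF
  Om := (vs M b).Om
  oPF := (vs M b).oPF
  oPF_ρ := (vs M b).oPF_ρ
  g i := (vr (univ : Set M)).sys.ofHom i.1
  γ t i := ⟨(hsys (id : M → M) (fun w : ℝ →ᵇ M => w 0) (H456.PF b t) univ).ofHom i.1,
    fun a => rfl⟩
  γO t i := (hsys (id : M → M) (fun w : ℝ →ᵇ M => w 0) (PS.P b b t) ({b} : Set M)).ofHom i.1
  colB := V921.ccol_sub (V921.colGA (univ : Set M)) i₀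
  col t := V921.isCol_sub (V921.colHD (id : M → M) (fun w : ℝ →ᵇ M => w 0) (H456.PF b t) univ) i₀
  colO t := V921.isCol_sub
    (V921.colHD (id : M → M) (fun w : ℝ →ᵇ M => w 0) (PS.P b b t) ({b} : Set M)) i₀
  gr_γ t i w := by
    refine congrArg (germD (id : M → M) (fun w : ℝ →ᵇ M => w 0) (PS.P b b t) ({b} : Set M)
      i.1.pos) ?_
    exact pullHom_congr pm_id_id sq_pm ((lsq_oPF b t).sqD i.1.v).map Sq.id
      (map_mono H456.P_subset_PF (subset_univ ({b} : Set M)) le_rfl) w
  σ_γ s t h i j hij w := by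
    have e1 : ((vs M b).Om.ρ s t h).g.f (germD (id : M → M) (fun w : ℝ →ᵇ M => w 0)
        (PS.P b b s) ({b} : Set M) i.1.pos w) = germD (id : M → M) (fun w : ℝ →ᵇ M => w 0)
        (PS.P b b t) ({b} : Set M) i.1.pos ((V994.PI.sg b h (le_refl i.1)).f w) := by
      refine congrArg (germD (id : M → M) (fun w : ℝ →ᵇ M => w 0) (PS.P b b t) ({b} : Set M)
        i.1.pos) ?_
      exact pullHom_congr pm_id_id sq_pm ((LSq.incl (π := (id : M → M))
        (ρ := fun w : ℝ →ᵇ M => w 0) (P_mono' h) (Subset.rfl : ({b} : Set M) ⊆ {b})).sqD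
          i.1.v).map Sq.id (map_mono (V994.PI.P_mono h) Subset.rfl le_rfl) w
    refine e1.trans ?_
    refine (germD_res j.1.pos i.1.pos (Sc.le_iff.1 hij) _).symm.trans ?_
    refine congrArg (germD (id : M → M) (fun w : ℝ →ᵇ M => w 0) (PS.P b b t) ({b} : Set M)
      j.1.pos) ?_
    exact V994.rst_rst (π := (id : M → M)) (ρ := fun w : ℝ →ᵇ M => w 0)
      (Subset.rfl : PS.P b b t ⊆ PS.P b b t) (Subset.rfl : ({b} : Set M) ⊆ {b})
      (Sc.le_iff.1 hij) (V994.PI.P_mono h) (Subset.rfl : ({b} : Set M) ⊆ {b}) (le_refl i.1.v) w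

end

end Vale.Agent.P216.V754
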