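import Mathlib.LinearAlgebra.Basis.VectorSpace
import Mathlib.LinearAlgebra.Finsupp.LinearCombination
import Mathlib.LinearAlgebra.Quotient.Basic
import Mathlib.LinearAlgebra.Dimension.LinearMap

/-!
# P216-V, (LIN): the chain map `ι` factors over its image in homology

For complexes `C₁ → C₀ → C₋` and `C₁' → C₀'` over a field and a map `ι : C₀ → C₀'` which maps
boundaries to boundaries, there are cycles `z a`, functionals `v a` (only finitely many of them are
nonzero at every `c`), vanishing on the boundaries and dual to the cycles, and linear maps `s`, `s'`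
with `ι c = ∑ a, v a c • ι (z a) + s (d c) + d' (s' c)`.
-/

open Submodule LinearMap Module

namespace Vale.Agent.P216.V754

universe u

variable {k : Type*} [Field k] {C1 C0 Cm C1' C0' L : Type*} [AddCommGroup C1] [Module k C1]
  [AddCommGroup C0] [Module k C0] [AddCommGroup Cm] [Module k Cm] [AddCommGroup C1'] [Module k C1']
  [AddCommGroup C0'] [Module k C0'] [AddCommGroup L] [Module k L]

/-- a linear section on the range -/
theorem exists_section (f : C0 →ₗ[k] Cm) : ∃ σ : Cm →ₗ[k] C0, ∀ c, f (σ (f c)) = f c := by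
  obtain ⟨g, hg⟩ := f.rangeRestrict.exists_rightInverse_of_surjective (range_rangeRestrict f)
  obtain ⟨σ, hσ⟩ := g.exists_extend
  refine ⟨σ, fun c => ?_⟩
  have h1 : σ (f c) = g ⟨f c, c, rfl⟩ := LinearMap.congr_fun hσ ⟨f c, c, rfl⟩
  have h2 := congrArg Subtype.val (LinearMap.congr_fun hg ⟨f c, c, rfl⟩)
  rw [h1]
  exact h2

/-- The output of (LIN). -/
structure LinOut (d1 : C1 →ₗ[k] C0) (d0 : C0 →ₗ[k] Cm) (d1' : C1' →ₗ[k] C0')
    (ι : C0 →ₗ[k] C0') (A : Type*) where
  /-- the cycles -/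
  z : A → C0
  /-- the coordinates -/
  v : C0 →ₗ[k] A →₀ k
  s : Cm →ₗ[k] C0'
  s' : C0 →ₗ[k] C1'
  d_z : ∀ a, d0 (z a) = 0
  v_d : ∀ c, v (d1 c) = 0
  v_z : ∀ a, v (z a) = Finsupp.single a 1
  eq : ∀ c, ι c = Finsupp.linearCombination k (fun a => ι (z a)) (v c) + s (d0 c) + d1' (s' c)

/-- **(LIN)** -/
theorem exists_linOut (d1 : C1 →ₗ[k] C0) (d0 : C0 →ₗ[k] Cm) (d1' : C1' →ₗ[k] C0')
    (ι : C0 →ₗ[k] C0') (hd : ∀ c, d0 (d1 c) = 0) (hι : ∀ c, ι (d1 c) ∈ range d1') :
    ∃ A : Set (↥((ker d0).map ((range d1').mkQ ∘ₗ ι))),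
      Nonempty (LinOut d1 d0 d1' ι A) := by
  classical
  obtain ⟨σ, hσ⟩ := exists_section d0
  obtain ⟨τ, hτ⟩ := exists_section d1'
  -- projection to the cycles
  let π : C0 →ₗ[k] C0 := LinearMap.id - σ ∘ₗ d0
  have hπ : ∀ c, d0 (π c) = 0 := fun c => by
    show d0 (c - σ (d0 c)) = 0
    rw [map_sub, hσ, sub_self]
  have hπ' : ∀ c, d0 c = 0 → π c = c := fun c hc => by
    show c - σ (d0 c) = c
    rw [hc, map_zero, sub_zero]
  let Q : C0 →ₗ[k] C0' ⧸ range d1' := (range d1').mkQ ∘ₗ ι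
  let I : Submodule k (C0' ⧸ range d1') := (ker d0).map Q
  let P : C0 →ₗ[k] I := (Q ∘ₗ π).codRestrict I fun c => ⟨π c, hπ c, rfl⟩
  have hP : Function.Surjective P := by
    rintro ⟨_, c, hc, rfl⟩
    refine ⟨c, Subtype.ext ?_⟩
    show Q (π c) = Q c
    rw [hπ' c hc]
  let b := Basis.ofVectorSpace k I
  have h1 : ∀ a, ∃ c ∈ ker d0, Q c = (b a : C0' ⧸ range d1') := fun a => (b a).2
  choose z hz hzb using h1
  have hPz : ∀ a, P (z a) = b a := fun a => Subtype.ext (by
    show Q (π (z a)) = b a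
    rw [hπ' _ (hz a), hzb])
  let v : C0 →ₗ[k] Basis.ofVectorSpaceIndex k I →₀ k := b.repr.toLinearMap ∘ₗ P
  let R : C0 →ₗ[k] C0' := ι ∘ₗ π -
    (Finsupp.linearCombination k fun a => ι (z a)) ∘ₗ v
  have hR : ∀ c, R c ∈ range d1' := by
    intro c
    rw [← Submodule.ker_mkQ (range d1'), LinearMap.mem_ker]
    show (range d1').mkQ (ι (π c) - Finsupp.linearCombination k (fun a => ι (z a)) (v c)) = 0
    rw [map_sub, sub_eq_zero]
    have h2 : (P c : C0' ⧸ range d1') = Finsupp.linearCombination k (fun a => Q (z a)) (v c) := by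
      have h3 := congrArg (Submodule.subtype I) (b.linearCombination_repr (P c))
      rw [Finsupp.apply_linearCombination] at h3
      refine h3.symm.trans ?_
      congr 2
      funext a
      exact (hzb a).symm
    have h4 : (range d1').mkQ (Finsupp.linearCombination k (fun a => ι (z a)) (v c)) =
        Finsupp.linearCombination k (fun a => Q (z a)) (v c) := by
      rw [Finsupp.apply_linearCombination]
      rfl
    rw [h4, ← h2]
    rfl
  refine ⟨Basis.ofVectorSpaceIndex k I, ⟨⟨z, v, ι ∘ₗ σ, τ ∘ₗ R, hz, fun c => ?_, fun a => ?_,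
    fun c => ?_⟩⟩⟩
  · show b.repr (P (d1 c)) = 0
    have h2 : P (d1 c) = 0 := Subtype.ext (by
      show Q (π (d1 c)) = 0
      rw [hπ' _ (hd c)]
      exact (Submodule.Quotient.mk_eq_zero _).2 (hι c))
    rw [h2, map_zero]
  · show b.repr (P (z a)) = _
    rw [hPz, b.repr_self]
  · obtain ⟨y, hy⟩ := hR c
    have h2 : d1' (τ (R c)) = R c := by rw [← hy, hτ]
    show ι c = Finsupp.linearCombination k (fun a => ι (z a)) (v c) + ι (σ (d0 c)) + d1' (τ (R c))
    rw [h2]
    show ι c = Finsupp.linearCombination k (fun a => ι (z a)) (v c) + ι (σ (d0 c)) +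
      (ι (c - σ (d0 c)) - Finsupp.linearCombination k (fun a => ι (z a)) (v c))
    rw [map_sub]
    abel

/-- **(LIN), dual form**: a cocycle `F` on `C'` with values in any `L` is, after `ι`, a locally
finite combination of the functionals `v a` plus a coboundary. -/
theorem LinOut.cochain {d1 : C1 →ₗ[k] C0} {d0 : C0 →ₗ[k] Cm} {d1' : C1' →ₗ[k] C0'}
    {ι : C0 →ₗ[k] C0'} {A : Type*} (O : LinOut d1 d0 d1' ι A) (F : C0' →ₗ[k] L)
    (hF : ∀ c, F (d1' c) = 0) (c : C0) :
    F (ι c) = Finsupp.linearCombination k (fun a => F (ι (O.z a))) (O.v c) + F (O.s (d0 c)) := by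
  rw [O.eq c, map_add, map_add, hF, add_zero, Finsupp.apply_linearCombination]
  rfl

end Vale.Agent.P216.V754
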