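import Vale.Agent.P216.V754.Lin
import Vale.Agent.P216.V1.Defs

/-!
# P216-V, (LIN) for small lists: cochains with values in a vector space

`X ⊆ Y`, `ε ≤ ε'`. There are cycles `z a` on the small lists of `X` and cocycles `v a` (only
finitely many are nonzero on a given list), dual to each other, such that every cochain `F` on the
lists of `Y` with values in any vector space `L`, closed on the small lists of `Y`, is on the small
lists of `X` equal to `∑ a, v a • F (z a)` plus a coboundary.
-/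

open Finsupp

namespace Vale.Agent.P216.V754

open Sl PS V1

variable {k : Type} [Field k] {E : Type} [PseudoMetricSpace E] {L : Type*} [AddCommGroup L]
  [Module k L]

omit [PseudoMetricSpace E] in
theorem ext_apply' {V : Type*} [AddCommGroup V] [Module k V] {f g : Ch k E →ₗ[k] V}
    (h : ∀ l, f (single l 1) = g (single l 1)) (c : Ch k E) : f c = g c := by
  have h1 : f = g := Finsupp.lhom_ext' fun l => LinearMap.ext_ring (h l)
  rw [h1]

omit [PseudoMetricSpace E] in
theorem eq_of_mem' {V : Type*} [AddCommGroup V] [Module k V] {P : List E → Prop}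
    {F G : Ch k E →ₗ[k] V} (h : ∀ l, P l → F (single l (1 : k)) = G (single l (1 : k)))
    {c : Ch k E} (hc : c ∈ Sp k P) : F c = G c := by
  have h1 : Sp k P ≤ LinearMap.ker (F - G) := by
    rw [Sp, Finsupp.supported_eq_span_single]
    refine Submodule.span_le.2 ?_
    rintro _ ⟨l, hl, rfl⟩
    show (F - G) (single l 1) = 0
    rw [LinearMap.sub_apply, h l hl, sub_self]
  have h2 : (F - G) c = 0 := h1 hc
  rwa [LinearMap.sub_apply, sub_eq_zero] at h2

/-- Evaluation of a cochain with values in `L` on a chain. -/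
noncomputable def evL (k : Type) [Field k] {E : Type} {L : Type*} [AddCommGroup L] [Module k L]
    (F : List E → L) : Ch k E →ₗ[k] L :=
  Finsupp.linearCombination k F

omit [PseudoMetricSpace E] in
@[simp] theorem evL_single (F : List E → L) (l : List E) (r : k) :
    evL k F (single l r) = r • F l := by
  simp [evL, Finsupp.linearCombination_single]

omit [PseudoMetricSpace E] in
theorem evL_cons (F : List E → L) (x : E) (c : Ch k E) :
    evL k F (cons x c) = evL k (fun l => F (x :: l)) c := by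
  have := ext_apply' (f := (evL k F).comp (cons x)) (g := evL k (fun l => F (x :: l)))
    (fun l => by simp) c
  simpa using this

theorem evL_bdL (F : List E → L) (l : List E) : evL k F (bdL l) = bl F l := by
  induction l generalizing F with
  | nil => rw [bdL_nil, map_zero, bl_nil]
  | cons x l ih => rw [bdL_cons, map_sub, evL_cons, ih, evL_single, one_smul, bl_cons]

theorem evL_bd (F : List E → L) (c : Ch k E) : evL k F (bd c) = evL k (bl F) c := by
  have := ext_apply' (f := (evL k F).comp bd) (g := evL k (bl F)) (fun l => by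
    rw [LinearMap.comp_apply, bd_single, one_smul, evL_bdL, evL_single, one_smul]) c
  simpa using this

omit [PseudoMetricSpace E] in
theorem evL_zero_of {F : List E → L} {P : List E → Prop} (h : ∀ l, P l → F l = 0) {c : Ch k E}
    (hc : c ∈ Sp k P) : evL k F c = 0 := by
  have := eq_of_mem' (F := evL k F) (G := 0) (fun l hl => by rw [evL_single, h l hl]; simp) hc
  simpa using this

omit [PseudoMetricSpace E] in
theorem evL_congr {F G : List E → L} {P : List E → Prop} (h : ∀ l, P l → F l = G l) {c : Ch k E}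
    (hc : c ∈ Sp k P) : evL k F c = evL k G c :=
  eq_of_mem' (fun l hl => by rw [evL_single, evL_single, h l hl]) hc

omit [PseudoMetricSpace E] in
theorem evL_eq_ev (f : List E → k) (c : Ch k E) : evL k f c = ev f c := rfl

variable {X Y : Set E} {ε ε' : ℝ}

/-- small lists of length `q + 1` -/
def SmQ (X : Set E) (ε : ℝ) (q : ℕ) (l : List E) : Prop := l.length = q + 1 ∧ SmL X ε l

theorem bdL_mem_sm {l : List E} {n : ℕ} (h1 : l.length = n + 1) (h : SmL X ε l) :
    (bdL l : Ch k E) ∈ Sp k (fun l' => l'.length = n ∧ SmL X ε l') := by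
  have key : ∀ l : List E, (bdL l : Ch k E) ∈
      Sp k (fun l' => l'.length + 1 = l.length ∧ ∀ x ∈ l', x ∈ l) := by
    intro l
    induction l with
    | nil => exact Submodule.zero_mem _
    | cons x l ih =>
      rw [bdL_cons]
      refine Submodule.sub_mem _ (single_mem
        (P := fun l' => l'.length + 1 = (x :: l).length ∧ ∀ y ∈ l', y ∈ x :: l)
        ⟨by simp, fun y hy => List.mem_cons_of_mem _ hy⟩ _) ?_
      exact map_mem _ (fun l' hl' => by
        rw [cons_single]
        refine single_mem ⟨by simp only [List.length_cons, hl'.1], fun y hy => ?_⟩ _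
        rcases List.mem_cons.1 hy with rfl | hy
        · exact List.mem_cons_self
        · exact List.mem_cons_of_mem _ (hl'.2 y hy)) ih
  refine Sp_mono (fun l' hl' => ⟨by have := hl'.1; omega, ?_⟩) (key l)
  exact ⟨fun x hx => h.1 x (hl'.2 x hx), fun x hx y hy => h.2 x (hl'.2 x hx) y (hl'.2 y hy)⟩

/-- The output of (LIN) for lists. -/
structure LinL (k : Type) [Field k] (X Y : Set E) (ε ε' : ℝ) (q : ℕ) (A : Type) where
  /-- the cycles -/
  z : A → Ch k E
  /-- the coordinates (a cochain with values in `A →₀ k`) -/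
  v : List E → A →₀ k
  z_mem : ∀ a, z a ∈ Sp k (SmQ X ε q)
  bd_z : q ≠ 0 → ∀ a, bd (z a) = 0
  bl_v : ∀ l, SmQ X ε (q + 1) l → bl v l = 0
  v_z : ∀ a, evL k v (z a) = single a 1
  /-- the potential, as a map of chains -/
  s : Ch k E →ₗ[k] Ch k E
  s_zero : q = 0 → s = 0
  s' : List E → Ch k E
  s'_mem : ∀ l, s' l ∈ Sp k (SmQ Y ε' (q + 1))
  eq : ∀ l, SmQ X ε q l →
    single l 1 = Finsupp.linearCombination k z (v l) + s (bdL l) + bd (s' l)

theorem bd_mem_sm {q : ℕ} {c : Ch k E} (hc : c ∈ Sp k (SmQ X ε (q + 1))) :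
    bd c ∈ Sp k (SmQ X ε q) :=
  map_mem _ (fun l hl => by
    rw [bd_single, one_smul]
    exact bdL_mem_sm hl.1 hl.2) hc

open Classical in
/-- coordinates of the small lists -/
noncomputable def coordV {q : ℕ} {V : Type*} [AddCommGroup V] [Module k V]
    (v : Sp k (SmQ X ε q) →ₗ[k] V) (l : List E) : V :=
  if h : SmQ X ε q l then v ⟨single l 1, single_mem h 1⟩ else 0

theorem coordV_eq {q : ℕ} {V : Type*} [AddCommGroup V] [Module k V]
    (v : Sp k (SmQ X ε q) →ₗ[k] V) {l : List E} (h : SmQ X ε q l) :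
    coordV v l = v ⟨single l 1, single_mem h 1⟩ := dif_pos h

theorem evL_coordV {q : ℕ} {V : Type*} [AddCommGroup V] [Module k V]
    (v : Sp k (SmQ X ε q) →ₗ[k] V) (c : Sp k (SmQ X ε q)) :
    evL k (coordV v) (c : Ch k E) = v c := by
  have h2 : ∀ l ∈ (c : Ch k E).support, SmQ X ε q l := fun l hl => c.2 hl
  have h3 : c = ∑ l ∈ (c : Ch k E).support.attach,
      (c : Ch k E) l.1 • (⟨single l.1 1, single_mem (h2 l.1 l.2) 1⟩ : Sp k (SmQ X ε q)) := by
    apply Subtype.ext
    rw [AddSubmonoidClass.coe_finsetSum]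
    simp only [SetLike.val_smul, smul_single, smul_eq_mul, mul_one]
    rw [Finset.sum_attach (c : Ch k E).support fun l => single l ((c : Ch k E) l)]
    exact (Finsupp.sum_single (c : Ch k E)).symm
  have h5 : v c = ∑ l ∈ (c : Ch k E).support.attach, (c : Ch k E) l.1 • coordV v l.1 := by
    conv_lhs => rw [h3]
    rw [map_sum]
    refine Finset.sum_congr rfl fun l _ => ?_
    rw [map_smul, coordV_eq v (h2 l.1 l.2)]
  rw [h5, Finset.sum_attach (c : Ch k E).support fun l => (c : Ch k E) l • coordV v l]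
  rfl

theorem linL_of {q : ℕ} {A : Type}
    (d1 : Sp k (SmQ X ε (q + 1)) →ₗ[k] Sp k (SmQ X ε q)) (hd1 : ∀ c, (d1 c : Ch k E) = bd c.1)
    (d0 : Sp k (SmQ X ε q) →ₗ[k] Ch k E) (hd0 : q ≠ 0 → ∀ c, d0 c = bd c.1)
    (hd0' : q = 0 → ∀ c, d0 c = 0)
    (d1' : Sp k (SmQ Y ε' (q + 1)) →ₗ[k] Ch k E) (hd1' : ∀ c, d1' c = bd c.1)
    (ι : Sp k (SmQ X ε q) →ₗ[k] Ch k E) (hι : ∀ c, ι c = c.1)
    (O : LinOut (k := k) (C1 := Sp k (SmQ X ε (q + 1))) (C0 := Sp k (SmQ X ε q)) (Cm := Ch k E)
      (C1' := Sp k (SmQ Y ε' (q + 1))) (C0' := Ch k E) d1 d0 d1' ι A) :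
    Nonempty (LinL k X Y ε ε' q A) := by
  classical
  have f1 : q ≠ 0 → ∀ a, bd (O.z a).1 = 0 := fun hq a => by
    rw [← hd0 hq]
    exact O.d_z a
  have f2 : ∀ l, SmQ X ε (q + 1) l → bl (coordV O.v) l = 0 := fun l hl => by
    have h1 := O.v_d (⟨single l 1, single_mem hl 1⟩ : Sp k (SmQ X ε (q + 1)))
    have h2 : (d1 ⟨single l 1, single_mem hl 1⟩ : Ch k E) = bdL l := by
      rw [hd1]
      show bd (single l 1) = bdL l
      rw [bd_single, one_smul]
    rw [← evL_bdL (k := k), ← h2, evL_coordV]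
    exact h1
  have f3 : ∀ a, evL k (coordV O.v) (O.z a).1 = single a 1 := fun a => by
    rw [evL_coordV]
    exact O.v_z a
  have f4 : ∀ l, SmQ X ε q l → single l 1 =
      Finsupp.linearCombination k (fun a => (O.z a : Ch k E)) (coordV O.v l) +
        (if q = 0 then 0 else O.s) (bdL l) + bd (coordV ((Submodule.subtype _) ∘ₗ O.s') l) := by
    intro l hl
    have h1 := O.eq ⟨single l 1, single_mem hl 1⟩
    have h2 : O.s (d0 ⟨single l 1, single_mem hl 1⟩) = (if q = 0 then 0 else O.s) (bdL l) := by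
      by_cases hq : q = 0
      · rw [if_pos hq, hd0' hq, map_zero, LinearMap.zero_apply]
      · rw [if_neg hq, hd0 hq]
        show O.s (bd (single l 1)) = O.s (bdL l)
        rw [bd_single, one_smul]
    rw [h2, hι, hd1'] at h1
    rw [coordV_eq _ hl, coordV_eq _ hl]
    have h3 : (fun a => ι (O.z a)) = fun a => (O.z a : Ch k E) := funext fun a => hι _
    rw [h3] at h1
    exact h1
  have f5 : ∀ l, coordV ((Submodule.subtype _) ∘ₗ O.s') l ∈ Sp k (SmQ Y ε' (q + 1)) := fun l => by
    unfold coordV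
    split_ifs with h
    · exact (O.s' _).2
    · exact Submodule.zero_mem _
  exact ⟨⟨fun a => (O.z a : Ch k E), coordV O.v, fun a => (O.z a).2, f1, f2, f3,
    if q = 0 then 0 else O.s, fun hq => if_pos hq, coordV ((Submodule.subtype _) ∘ₗ O.s'), f5, f4⟩⟩

/-- **(LIN) for small lists.** -/
theorem exists_linL (hXY : X ⊆ Y) (hε : ε ≤ ε') (q : ℕ) :
    ∃ A : Type, Nonempty (LinL k X Y ε ε' q A) := by
  classical
  have hsub : Sp k (SmQ X ε (q + 1)) ≤ Sp k (SmQ Y ε' (q + 1)) :=
    Sp_mono fun l hl => ⟨hl.1, hl.2.mono hXY hε⟩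
  have hq1 : ∃ d0 : Sp k (SmQ X ε q) →ₗ[k] Ch k E, (q ≠ 0 → ∀ c, d0 c = bd c.1) ∧
      (q = 0 → ∀ c, d0 c = 0) := by
    by_cases hq : q = 0
    · exact ⟨0, fun h => absurd hq h, fun _ _ => rfl⟩
    · exact ⟨bd ∘ₗ Submodule.subtype _, fun _ _ => rfl, fun h => absurd h hq⟩
  obtain ⟨d0, hd0, hd0'⟩ := hq1
  have hq2 : ∃ d1 : Sp k (SmQ X ε (q + 1)) →ₗ[k] Sp k (SmQ X ε q),
      ∀ c, (d1 c : Ch k E) = bd c.1 := ⟨bd.restrict fun c hc => bd_mem_sm hc, fun _ => rfl⟩
  obtain ⟨d1, hd1⟩ := hq2
  have hq3 : ∃ d1' : Sp k (SmQ Y ε' (q + 1)) →ₗ[k] Ch k E, ∀ c, d1' c = bd c.1 :=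
    ⟨bd ∘ₗ Submodule.subtype _, fun _ => rfl⟩
  obtain ⟨d1', hd1'⟩ := hq3
  obtain ⟨ι, hι⟩ : ∃ ι : Sp k (SmQ X ε q) →ₗ[k] Ch k E, ∀ c, ι c = c.1 :=
    ⟨Submodule.subtype _, fun _ => rfl⟩
  have hdd : ∀ c, d0 (d1 c) = 0 := fun c => by
    by_cases hq : q = 0
    · exact hd0' hq _
    · rw [hd0 hq, hd1]
      exact bd_bd _
  obtain ⟨A, ⟨O⟩⟩ := exists_linOut (k := k) (C1 := Sp k (SmQ X ε (q + 1)))
    (C0 := Sp k (SmQ X ε q)) (Cm := Ch k E) (C1' := Sp k (SmQ Y ε' (q + 1))) (C0' := Ch k E)
    d1 d0 d1' ι hdd (fun c => ⟨⟨c.1, hsub c.2⟩, by rw [hd1', hι, hd1]⟩)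
  exact ⟨A, linL_of d1 hd1 d0 hd0 hd0' d1' hd1' ι hι O⟩

namespace LinL

variable {q : ℕ} {A : Type} (O : LinL k X Y ε ε' q A)

/-- the potential of a cochain -/
noncomputable def pot (F : List E → L) (l : List E) : L := evL k F (O.s (single l 1))

theorem pot_zero (hq : q = 0) (F : List E → L) (l : List E) : O.pot F l = 0 := by
  unfold pot
  rw [O.s_zero hq, LinearMap.zero_apply, map_zero]

/-- **A cochain with values in any vector space, closed on the small lists of `Y`, is a
combination of the `v a` plus a coboundary on the small lists of `X`.** -/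
theorem cochain (F : List E → L) (hF : ∀ l, SmQ Y ε' (q + 1) l → bl F l = 0) {l : List E}
    (hl : SmQ X ε q l) :
    F l = Finsupp.linearCombination k (fun a => evL k F (O.z a)) (O.v l) + bl (O.pot F) l := by
  have h1 := congrArg (evL k F) (O.eq l hl)
  rw [evL_single, one_smul, map_add, map_add, evL_bd, evL_zero_of hF (O.s'_mem l), add_zero,
    Finsupp.apply_linearCombination] at h1
  have h2 : evL k F (O.s (bdL l)) = bl (O.pot F) l := by
    have h3 : evL k (O.pot F) (bdL l) = evL k F (O.s (bdL l)) :=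
      ext_apply' (f := evL k (O.pot F)) (g := (evL k F).comp O.s) (fun l => by
        rw [evL_single, one_smul, LinearMap.comp_apply]
        rfl) (bdL l)
    rw [← h3, evL_bdL]
  rw [← h2]
  exact h1

/-- the coordinate cocycles -/
noncomputable def co (a : A) (l : List E) : k := O.v l a

theorem dl_co (a : A) {l : List E} (hl : SmQ X ε (q + 1) l) : dl (O.co a) l = 0 := by
  have h1 : evL k (O.co a) (bdL l) = Finsupp.lapply (R := k) a (evL k O.v (bdL l)) := by
    have := ext_apply' (f := evL k (O.co a)) (g := (Finsupp.lapply (R := k) (M := k) a).comp (evL k O.v))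
      (fun l => by
        rw [evL_single, LinearMap.comp_apply, evL_single]
        rfl) (bdL l)
    simpa using this
  show ev (O.co a) (bdL l) = 0
  rw [← evL_eq_ev, h1, evL_bdL, O.bl_v l hl, map_zero]

theorem ev_co (a b : A) [Decidable (a = b)] : ev (O.co b) (O.z a) = if a = b then 1 else 0 := by
  have h1 : evL k (O.co b) (O.z a) = Finsupp.lapply (R := k) b (evL k O.v (O.z a)) := by
    have := ext_apply' (f := evL k (O.co b)) (g := (Finsupp.lapply (R := k) (M := k) b).comp (evL k O.v))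
      (fun l => by
        rw [evL_single, LinearMap.comp_apply, evL_single]
        rfl) (O.z a)
    simpa using this
  rw [← evL_eq_ev, h1, O.v_z, Finsupp.lapply_apply, Finsupp.single_apply]

theorem ev_zero (F : List E → L) (hF : ∀ l, SmQ X ε q l → F l = bl (fun _ => (0 : L)) l) (a : A) :
    evL k F (O.z a) = 0 :=
  evL_zero_of (P := SmQ X ε q) (fun l hl => by rw [hF l hl, bl_zero]) (O.z_mem a)

/-- exact cochains vanish on the cycles -/
theorem ev_exact (hq : q ≠ 0) (F G : List E → L) (hF : ∀ l, SmQ X ε q l → F l = bl G l) (a : A) :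
    evL k F (O.z a) = 0 := by
  rw [evL_congr hF (O.z_mem a), ← evL_bd, O.bd_z hq, map_zero]

end LinL

end Vale.Agent.P216.V754
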