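import Vale.Agent.P216.V754.WData

/-!
# P216-V, V6: superlinear growth gives infinitely many closed geodesics

`GrowthL M k`: for every `C` there are `t ≥ 1` and more than `C * t` list cocycles on `FL M (t + 3)`
which are independent on `FL M t`.  `infinite_of_growthL`: the conclusion.
-/

set_option linter.unusedSectionVars false

open Set Topology Bundle Manifold BoundedContinuousFunction
open scoped ContDiff

namespace Vale.Agent.P216.V754

open AS GM B64 B609 H494 L250 MV337 V609
open Vale.Agent.P216.H288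
open Vale.Agent.P216.Sl (CocL ExL cls cls_eq_zero)

/-- Superlinear growth in terms of list cochains: `C * t` independent cocycles on `FL M (t + 3)`
which remain independent on `FL M t`. -/
def GrowthL (M : Type) [MetricSpace M] (k : Type) [Field k] : Prop :=
  ∀ C : ℝ, ∃ t : ℝ, 1 ≤ t ∧ ∃ (ι : Type) (_ : Fintype ι) (deg : ι → ℕ)
    (f : ι → List (ℝ →ᵇ M) → k), (∀ i, CocL (FL M (t + 3)) (deg i) (f i)) ∧
    (∀ (q : ℕ) (a : ι → k), (∀ i, deg i ≠ q → a i = 0) →
      ExL (FL M t) q (fun l => ∑ i, a i * f i l) → ∀ i, a i = 0) ∧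
    C * t < Fintype.card ι

/-- Independent list cocycles bound the rank of the restriction from below. -/
theorem card_le_rkres_list {E : Type} [PseudoMetricSpace E] {k : Type} [Field k] {X Y : Set E}
    (h : X ⊆ Y) {n : ℕ} {ι : Type} [Fintype ι] (f : ι → List E → k)
    (hf : ∀ i, CocL Y n (f i))
    (hi : ∀ a : ι → k, ExL X n (fun l => ∑ i, a i * f i l) → a = 0) :
    (Fintype.card ι : Cardinal) ≤ rkres k h n := by
  have h1 : LinearIndependent k fun i => hres k h n (cls (a0 E) (c0 k) (f i) (hf i)) := by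
    rw [Fintype.linearIndependent_iff]
    intro a ha
    have h2 : ∑ i, a i • cls (a0 E) (c0 k) (f i) ((hf i).mono h) = 0 := ha
    rw [cls_sum' Finset.univ f (fun i => (hf i).mono h) a, cls_eq_zero] at h2
    exact fun i => congrFun (hi a h2) i
  have h2 : LinearIndependent k fun i => (⟨hres k h n (cls (a0 E) (c0 k) (f i) (hf i)),
      ⟨_, rfl⟩⟩ : LinearMap.range (hres k h n)) := by
    rw [← LinearMap.linearIndependent_iff (Submodule.subtype _) (Submodule.ker_subtype _)]
    exact h1
  have h3 := h2.cardinal_le_rank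
  rwa [Cardinal.mk_fintype] at h3

/-- **V6**, list form. -/
theorem infinite_of_growthL
    {E : Type} [NormedAddCommGroup E] [NormedSpace ℝ E] [FiniteDimensional ℝ E]
    {M : Type} [MetricSpace M] [CompactSpace M] [ChartedSpace E M] [IsManifold 𝓘(ℝ, E) ∞ M]
    [RiemannianBundle (fun x : M => TangentSpace 𝓘(ℝ, E) x)]
    [IsContMDiffRiemannianBundle 𝓘(ℝ, E) ∞ E (fun x : M => TangentSpace 𝓘(ℝ, E) x)]
    [IsRiemannianManifold 𝓘(ℝ, E) M] [PreconnectedSpace M] {k : Type} [Field k]
    (h2 : (2 : k) ≠ 0) (H : GrowthL M k) : (primeClosedGeodesicImages M).Infinite := by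
  classical
  by_contra hfin
  obtain ⟨C, hC⟩ := V609.growth (E := E) hfin k h2
  obtain ⟨t, ht, ι, _, deg, f, hf, hind, hCt⟩ := H (3 * C)
  have h1 := hC t (by linarith) (Finset.univ.sup deg + 1)
  have h3 : ∀ q, (Fintype.card {i // deg i = q} : Cardinal) ≤
      rkres k (FL_mono (by linarith) : FL M t ⊆ FL M (t + 3)) q := by
    intro q
    refine card_le_rkres_list _ (fun i : {i // deg i = q} => f i.1) ?_ fun a ha => ?_
    · rintro ⟨i, rfl⟩
      exact hf i
    · funext i
      have h3 := hind q (fun j => if h : deg j = q then a ⟨j, h⟩ else 0)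
        (fun j hj => dif_neg hj) (by
          have e1 : (fun l => ∑ j, (if h : deg j = q then a ⟨j, h⟩ else 0) * f j l) =
              fun l => ∑ j : {i // deg i = q}, a j * f j.1 l := by
            funext l
            rw [← Fintype.sum_subtype_add_sum_subtype (fun j => deg j = q)
              (fun j => (if h : deg j = q then a ⟨j, h⟩ else 0) * f j l)]
            have e2 : ∑ j : {j // ¬ deg j = q},
                (if h : deg j.1 = q then a ⟨j.1, h⟩ else 0) * f j.1 l = 0 :=
              Finset.sum_eq_zero fun j _ => by rw [dif_neg j.2, zero_mul]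
            rw [e2, add_zero]
            exact Finset.sum_congr rfl fun j _ => by rw [dif_pos j.2]
          rw [e1]
          exact ha) i.1
      rw [dif_pos i.2] at h3
      exact h3
  have h4 : Fintype.card ι = ∑ q ∈ Finset.range (Finset.univ.sup deg + 1),
      Fintype.card {i // deg i = q} := by
    rw [← Finset.card_univ, Finset.card_eq_sum_card_fiberwise (f := deg)
      (t := Finset.range (Finset.univ.sup deg + 1))]
    · refine Finset.sum_congr rfl fun q _ => ?_
      rw [Fintype.card_subtype]
    · intro i _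
      rw [Finset.mem_coe, Finset.mem_range]
      exact Nat.lt_succ_of_le (Finset.le_sup (f := deg) (Finset.mem_univ i))
  have h5 : (Fintype.card ι : Cardinal) ≤ ((C * (⌈t⌉₊ + 1) : ℕ) : Cardinal) := by
    refine le_trans ?_ h1
    rw [h4, Nat.cast_sum]
    exact Finset.sum_le_sum fun q _ => h3 q
  have h6 : Fintype.card ι ≤ C * (⌈t⌉₊ + 1) := by exact_mod_cast h5
  have h7 : (Fintype.card ι : ℝ) ≤ C * (⌈t⌉₊ + 1) := by exact_mod_cast h6
  have h8 : (⌈t⌉₊ : ℝ) < t + 1 := Nat.ceil_lt_add_one (by linarith)
  have h9 : (C : ℝ) * (⌈t⌉₊ + 1) ≤ 3 * C * t := by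
    have : (0 : ℝ) ≤ C := Nat.cast_nonneg C
    nlinarith
  linarith

end Vale.Agent.P216.V754
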