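import Vale.Agent.P216.V609.Rank
import Mathlib.LinearAlgebra.Dimension.StrongRankCondition

/-!
# P216-V, V7 (7b): two independent even classes contradict linear growth

`Indep C α β p q N`: the monomials `α ^ i * β ^ j`, `i + j ≤ N`, are independent in the cohomology
of `C` (degree by degree).  `Sys.false_of_indep`: if the total rank of a system grows at most
linearly, there are no compatible closed classes `α`, `β` such that this holds for every `N` at the
level `b (N + 1)`.
-/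

open Submodule LinearMap

universe w v u

namespace Vale.Agent.P216.V754

open V609

variable {k : Type w} [Field k]

/-- The monomials `α ^ i * β ^ j`, `i + j ≤ N`, are independent modulo exact elements. -/
def Indep {A : Type u} [Ring A] [Algebra k A] (C : Cdga k A) (α β : A) (p q N : ℕ) : Prop :=
  ∀ (n : ℕ) (a : ℕ → ℕ → k), (∀ i j, a i j ≠ 0 → i + j ≤ N ∧ i * p + j * q = n) →
    ∑ i ∈ Finset.range (N + 1), ∑ j ∈ Finset.range (N + 1), a i j • (α ^ i * β ^ j) ∈ C.B n →
    ∀ i j, a i j = 0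

theorem Indep.of_hom {A : Type v} {A' : Type u} [Ring A] [Algebra k A] [Ring A'] [Algebra k A'] {C : Cdga k A}
    {C' : Cdga k A'} (φ : Cdga.Hom C C') {α β : A} {p q N : ℕ}
    (h : Indep C' (φ.f α) (φ.f β) p q N) : Indep C α β p q N := by
  intro n a ha hB
  refine h n a ha ?_
  have h1 := φ.map_B hB
  simpa only [map_sum, map_smul, map_mul, map_pow] using h1

theorem Indep.mono {A : Type u} [Ring A] [Algebra k A] {C : Cdga k A} {α β : A} {p q N N' : ℕ}
    (h : Indep C α β p q N') (hN : N ≤ N') : Indep C α β p q N := by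
  intro n a ha hB
  refine h n a (fun i j hij => ⟨(ha i j hij).1.trans hN, (ha i j hij).2⟩) ?_
  have e1 : ∑ i ∈ Finset.range (N' + 1), ∑ j ∈ Finset.range (N' + 1), a i j • (α ^ i * β ^ j) =
      ∑ i ∈ Finset.range (N + 1), ∑ j ∈ Finset.range (N + 1), a i j • (α ^ i * β ^ j) := by
    have hz : ∀ i j, N < i + j → a i j = 0 := fun i j hij => by
      by_contra h0
      exact absurd (ha i j h0).1 (by omega)
    symm
    have e2 : ∀ i, ∑ j ∈ Finset.range (N + 1), a i j • (α ^ i * β ^ j) =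
        ∑ j ∈ Finset.range (N' + 1), a i j • (α ^ i * β ^ j) := fun i =>
      Finset.sum_subset (Finset.range_mono (by omega)) fun j _ hj => by
        rw [hz i j (by simp only [Finset.mem_range] at hj; omega), zero_smul]
    simp only [e2]
    refine Finset.sum_subset (Finset.range_mono (by omega)) fun i _ hi => ?_
    refine Finset.sum_eq_zero fun j _ => ?_
    rw [hz i j (by simp only [Finset.mem_range] at hi; omega), zero_smul]
  rw [e1]
  exact hB

theorem mul_pow_mem_Z {A : Type u} [Ring A] [Algebra k A] {C : Cdga k A} {α β : A} {p q : ℕ}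
    (hα : α ∈ C.Z p) (hβ : β ∈ C.Z q) (i j : ℕ) : α ^ i * β ^ j ∈ C.Z (i * p + j * q) :=
  ⟨C.mul_mem (C.pow_mem hα.1 i) (C.pow_mem hβ.1 j),
    C.d_mul_closed (C.d_pow hα.2 i) (C.d_pow hβ.2 j)⟩

/-- independent monomials of degree `n` bound the rank in degree `n` -/
theorem card_le_rk {A A' : Type u} [Ring A] [Algebra k A] [Ring A'] [Algebra k A'] {C : Cdga k A}
    {C' : Cdga k A'} (φ : Cdga.Hom C C') {n : ℕ} {ι : Type} [Fintype ι] (z : ι → A)
    (hz : ∀ i, z i ∈ C.Z n) (hi : ∀ a : ι → k, ∑ i, a i • φ.f (z i) ∈ C'.B n → a = 0) :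
    (Fintype.card ι : Cardinal.{u}) ≤ rk φ n := by
  have h1 : LinearIndependent k fun i => (⟨(C'.B n).mkQ (φ.f (z i)),
      ⟨z i, hz i, rfl⟩⟩ : img φ n) := by
    rw [← LinearMap.linearIndependent_iff (Submodule.subtype _) (Submodule.ker_subtype _),
      Fintype.linearIndependent_iff]
    intro a ha
    have h2 : (C'.B n).mkQ (∑ i, a i • φ.f (z i)) = 0 := by
      rw [map_sum]
      simp only [map_smul]
      exact ha
    rw [Submodule.mkQ_apply, Submodule.Quotient.mk_eq_zero] at h2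
    exact fun i => congrFun (hi a h2) i
  have h3 := h1.cardinal_lift_le_rank
  rwa [Cardinal.mk_fintype, Cardinal.lift_natCast, Cardinal.lift_uzero] at h3

/-- independent monomials bound the total rank -/
theorem sq_le_sum_rk {A A' : Type u} [Ring A] [Algebra k A] [Ring A'] [Algebra k A'] {C : Cdga k A}
    {C' : Cdga k A'} (φ : Cdga.Hom C C') {α β : A} {p q N : ℕ} (hα : α ∈ C.Z p) (hβ : β ∈ C.Z q)
    (h : Indep C' (φ.f α) (φ.f β) p q (N + N)) :
    (((N + 1) * (N + 1) : ℕ) : Cardinal) ≤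
      ∑ n ∈ Finset.range (N * p + N * q + 1), rk φ n := by
  classical
  let ι := Fin (N + 1) × Fin (N + 1)
  let deg : ι → ℕ := fun x => x.1 * p + x.2 * q
  have h1 : ∀ n, (Fintype.card {x : ι // deg x = n} : Cardinal) ≤ rk φ n := by
    intro n
    refine card_le_rk φ (fun x : {x : ι // deg x = n} => α ^ (x.1.1 : ℕ) * β ^ (x.1.2 : ℕ))
      (fun x => ?_) fun a ha => ?_
    · have h0 := mul_pow_mem_Z hα hβ x.1.1 x.1.2
      have e : (x.1.1 : ℕ) * p + x.1.2 * q = n := x.2
      rwa [e] at h0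
    · -- extend the coefficients
      let b : ℕ → ℕ → k := fun i j => if h : (i < N + 1 ∧ j < N + 1) ∧ i * p + j * q = n then
        a ⟨(⟨i, h.1.1⟩, ⟨j, h.1.2⟩), h.2⟩ else 0
      have hb : ∀ i j, b i j ≠ 0 → i + j ≤ N + N ∧ i * p + j * q = n := by
        intro i j hij
        by_cases h' : (i < N + 1 ∧ j < N + 1) ∧ i * p + j * q = n
        · exact ⟨by omega, h'.2⟩
        · exact absurd (dif_neg h') hij
      have e0 : ∑ i ∈ Finset.range (N + N + 1), ∑ j ∈ Finset.range (N + N + 1),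
          b i j • ((φ.f α) ^ i * (φ.f β) ^ j) =
          ∑ x : {x : ι // deg x = n}, a x • φ.f (α ^ (x.1.1 : ℕ) * β ^ (x.1.2 : ℕ)) := by
        have hz : ∀ i j, N < i ∨ N < j → b i j = 0 := fun i j hij => dif_neg (by omega)
        have e1 : ∀ i, ∑ j ∈ Finset.range (N + N + 1), b i j • ((φ.f α) ^ i * (φ.f β) ^ j) =
            ∑ j ∈ Finset.range (N + 1), b i j • ((φ.f α) ^ i * (φ.f β) ^ j) := fun i => by
          refine (Finset.sum_subset (Finset.range_mono (by omega)) fun j _ hj => ?_).symm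
          rw [hz i j (Or.inr (by simp only [Finset.mem_range] at hj; omega)), zero_smul]
        have e2 : ∑ i ∈ Finset.range (N + N + 1), ∑ j ∈ Finset.range (N + 1),
            b i j • ((φ.f α) ^ i * (φ.f β) ^ j) = ∑ i ∈ Finset.range (N + 1),
            ∑ j ∈ Finset.range (N + 1), b i j • ((φ.f α) ^ i * (φ.f β) ^ j) := by
          refine (Finset.sum_subset (Finset.range_mono (by omega)) fun i _ hi => ?_).symm
          refine Finset.sum_eq_zero fun j _ => ?_
          rw [hz i j (Or.inl (by simp only [Finset.mem_range] at hi; omega)), zero_smul]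
        simp only [e1]
        rw [e2, Finset.sum_range]
        simp only [Finset.sum_range]
        rw [← Fintype.sum_prod_type' (f := fun (i j : Fin (N + 1)) =>
          b i j • ((φ.f α) ^ (i : ℕ) * (φ.f β) ^ (j : ℕ))),
          ← Fintype.sum_subtype_add_sum_subtype (fun x : ι => deg x = n)]
        have e3 : ∑ x : {x : ι // ¬ deg x = n},
            b x.1.1 x.1.2 • ((φ.f α) ^ (x.1.1 : ℕ) * (φ.f β) ^ (x.1.2 : ℕ)) = 0 :=
          Finset.sum_eq_zero fun x _ => by
            rw [show b x.1.1 x.1.2 = 0 from dif_neg fun h' => x.2 h'.2, zero_smul]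
        rw [e3, add_zero]
        refine Finset.sum_congr rfl fun x _ => ?_
        rw [map_mul, map_pow, map_pow]
        congr 1
        exact dif_pos ⟨⟨x.1.1.2, x.1.2.2⟩, x.2⟩
      have h2 := h n b hb (by rw [e0]; exact ha)
      funext x
      have h3 := h2 x.1.1 x.1.2
      rwa [show b x.1.1 x.1.2 = a x from dif_pos ⟨⟨x.1.1.2, x.1.2.2⟩, x.2⟩] at h3
  have h2 : (N + 1) * (N + 1) = ∑ n ∈ Finset.range (N * p + N * q + 1),
      Fintype.card {x : ι // deg x = n} := by
    have e1 : (N + 1) * (N + 1) = Fintype.card ι := by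
      simp [ι]
    rw [e1, ← Finset.card_univ, Finset.card_eq_sum_card_fiberwise (f := deg)
      (t := Finset.range (N * p + N * q + 1))]
    · refine Finset.sum_congr rfl fun n _ => ?_
      rw [Fintype.card_subtype]
    · intro x _
      rw [Finset.mem_coe, Finset.mem_range]
      have h3 : (x.1 : ℕ) ≤ N := Nat.lt_succ_iff.1 x.1.2
      have h4 : (x.2 : ℕ) ≤ N := Nat.lt_succ_iff.1 x.2.2
      exact Nat.lt_succ_of_le (Nat.add_le_add (Nat.mul_le_mul_right _ h3)
        (Nat.mul_le_mul_right _ h4))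
  rw [h2, Nat.cast_sum]
  exact Finset.sum_le_sum fun n _ => h1 n

/-- quadratic growth contradicts a linear bound -/
theorem false_of_sq (r : ℝ → ℕ → Cardinal.{u}) {D : ℕ}
    (hD : ∀ t : ℝ, 0 < t → ∀ m : ℕ,
      ∑ n ∈ Finset.range m, r t n ≤ ((D * (⌈t⌉₊ + 1) : ℕ) : Cardinal))
    {b : ℝ} (hI : ∀ N : ℕ, ∃ t : ℝ, 0 < t ∧ t ≤ b * (N + N + 1) ∧ ∃ m : ℕ,
      (((N + 1) * (N + 1) : ℕ) : Cardinal) ≤ ∑ n ∈ Finset.range m, r t n) : False := by
  have hb : 0 < b := by
    obtain ⟨t, ht, htb, -⟩ := hI 0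
    simp only [Nat.cast_zero, zero_add, mul_one] at htb
    linarith
  obtain ⟨N, hN⟩ := exists_nat_gt ((D : ℝ) * (2 * b + 2))
  obtain ⟨t, ht, htN, m, h1⟩ := hI N
  have h2 := h1.trans (hD t ht m)
  have h3 : (N + 1) * (N + 1) ≤ D * (⌈t⌉₊ + 1) := by exact_mod_cast h2
  have h4 : ((N + 1) * (N + 1) : ℝ) ≤ D * (⌈t⌉₊ + 1) := by exact_mod_cast h3
  have h5 : (⌈t⌉₊ : ℝ) < t + 1 := Nat.ceil_lt_add_one ht.le
  have hD0 : (0 : ℝ) ≤ D := Nat.cast_nonneg D
  have hN0 : (0 : ℝ) ≤ N := Nat.cast_nonneg N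
  have h6 : (⌈t⌉₊ : ℝ) + 1 ≤ (2 * b + 2) * (N + 1) := by nlinarith
  have h7 : (D : ℝ) * (⌈t⌉₊ + 1) ≤ D * ((2 * b + 2) * (N + 1)) :=
    mul_le_mul_of_nonneg_left h6 hD0
  nlinarith

/-- **(7b)**, level by level: no compatibility of the classes for different levels is needed. -/
theorem false_of_indep_lev (S : Sys.{w, v, u} k) (hS : S.LinBd) {p q : ℕ} {b : ℝ}
    (hI : ∀ c : ℝ, 0 ≤ c → ∃ b' : ℝ, ∀ N : ℕ, ∃ (t : ℝ) (ht : 0 < t)
      (h : t ≤ t + c), t ≤ b * (N + 1) + b' ∧
      ∃ α ∈ (S.C (t + c)).Z p, ∃ β ∈ (S.C (t + c)).Z q,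
        Indep (S.C t) ((S.ρ (t + c) t h).f α) ((S.ρ (t + c) t h).f β) p q N) :
    False := by
  obtain ⟨c, hc, D, hD⟩ := hS
  obtain ⟨b', hI⟩ := hI c hc
  refine false_of_sq (D := D) (b := |b| + |b'|) (fun t n => if h : t ≤ t + c then rk (S.ρ (t + c) t h) n
    else 0) (fun t ht m => ?_) fun N => ?_
  · refine le_trans (le_of_eq (Finset.sum_congr rfl fun n _ => ?_)) (hD t ht m)
    exact dif_pos (by linarith)
  · obtain ⟨t, ht, h, htN, α, hα, β, hβ, hi⟩ := hI (N + N)
    refine ⟨t, ht, ?_, N * p + N * q + 1, ?_⟩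
    · push_cast at htN
      have h1 : b * (N + N + 1) ≤ |b| * (N + N + 1) :=
        mul_le_mul_of_nonneg_right (le_abs_self b) (by positivity)
      have h2 : b' ≤ |b'| * (N + N + 1) := by
        have h3 : (1 : ℝ) ≤ N + N + 1 := by
          have : (0 : ℝ) ≤ N := Nat.cast_nonneg N
          linarith
        nlinarith [le_abs_self b', abs_nonneg b']
      nlinarith
    · refine (sq_le_sum_rk (S.ρ (t + c) t h) hα hβ hi).trans (le_of_eq ?_)
      refine Finset.sum_congr rfl fun n _ => ?_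
      rw [dif_pos h]

/-- **(7b)** two compatible closed classes with independent monomials contradict linear growth. -/
theorem false_of_indep (S : Sys.{w, v, u} k) (hS : S.LinBd) {p q : ℕ} (α β : ∀ t, S.A t)
    (hα : ∀ t, α t ∈ (S.C t).Z p) (hβ : ∀ t, β t ∈ (S.C t).Z q)
    (hα' : ∀ s t h, (S.ρ s t h).f (α s) = α t) (hβ' : ∀ s t h, (S.ρ s t h).f (β s) = β t)
    {b : ℝ}
    (hI : ∀ N : ℕ, ∃ t : ℝ, 0 < t ∧ t ≤ b * (N + 1) ∧ Indep (S.C t) (α t) (β t) p q N) :
    False := by
  refine false_of_indep_lev S hS (p := p) (q := q) (b := b) fun c hc => ⟨0, fun N => ?_⟩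
  obtain ⟨t, ht, htN, h⟩ := hI N
  exact ⟨t, ht, by linarith, by linarith, α (t + c), hα _, β (t + c), hβ _, by
    rw [hα', hβ']; exact h⟩

end Vale.Agent.P216.V754
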