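import Vale.Agent.P216.V754.Tri
import Vale.Agent.P216.V775.Kos

/-!
# P216-V, F-TOP: the augmentation of a tower

`tzb`: all the generators go to zero, on the base; `tz_omap`, `tz_ev`: naturality of `tz`.
`KTw.tzb_zero`, `KTw.eq_tzb`: for a Koszul tower. `tz_eq`: uniqueness.
-/

universe u v w u' v' u'' v''

open MvPolynomial Finset

namespace Vale.Agent.P216.V754

open Vale.Agent.P216.V609 Vale.Agent.P216.V775

variable {k : Type w} [Field k]

/-- naturality of `tz` over the base -/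
theorem tz_omap {X : CD.{u} k} (T : Tw X) {A B : ND.{u'} X} (g : NMo A B) {A' A'' : Type v''}
    [Ring A'] [Algebra k A'] [Ring A''] [Algebra k A''] {O : NDga k A'} {O' : NDga k A''}
    (r : NDga.Hom A.D O) (hr : Zp A r) (r' : NDga.Hom B.D O') (hr' : Zp B r')
    (s : NDga.Hom O O') (hs : ∀ a, r'.f (g.g.f a) = s.f (r.f a)) (a : (T.obj A).A) :
    (tz T B r' hr').f ((T.omap g).g.f a) = s.f ((tz T A r hr).f a) := by
  induction T with
  | nil X => exact hs a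
  | cons X l hl x hx hdx T ih =>
    exact ih (g.ex hl hx hdx) _ (hr.ex hl hx hdx) _ (hr'.ex hl hx hdx) (fun a => hs a.1) a

/-- `e ↦ 0` on the base -/
def exZb {X : CD.{u} k} {Y : CD.{v} k} (ε : X.Hm Y) {l : ℕ} (hl : Odd l) {x : X.A}
    (hx : x ∈ X.C.deg (l + 1)) (hdx : X.C.d x = 0) (h : ε.f x = 0) : (X.ex hl hx hdx).Hm Y where
  f := AlgHom.ofLinearMap
    { toFun := fun a => ε.f a.1
      map_add' := fun a b => by simp
      map_smul' := fun c a => by simp } (by simp) (fun a b => by simp)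
  deg h' := ε.deg h'.1
  sg a := ε.sg a.1
  d a := by
    show ε.f (X.C.d a.1 + X.C.sg a.2 * x) = Y.C.d (ε.f a.1)
    rw [map_add, map_mul, h, mul_zero, add_zero, ε.d]

/-- **all the generators go to zero**, on the base -/
def tzb : {X : CD.{u} k} → (T : Tw X) → {Y : CD.{v} k} → (ε : X.Hm Y) →
    (∀ m, ∀ a ∈ X.C.deg (m + 1), ε.f a = 0) → T.top.Hm Y
  | _, .nil _, _, ε, _ => ε
  | _, .cons _ l hl x hx hdx T, _, ε, h => tzb T (exZb ε hl hx hdx (h l x hx))
      (fun m a ha => h m a.1 ha.1)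

theorem tzb_inc {X : CD.{u} k} (T : Tw X) {Y : CD.{v} k} (ε : X.Hm Y)
    (h : ∀ m, ∀ a ∈ X.C.deg (m + 1), ε.f a = 0) (a : X.A) :
    (tzb T ε h).f (T.inc.f a) = ε.f a := by
  induction T with
  | nil X => rfl
  | cons X l hl x hx hdx T ih =>
    exact ih (exZb ε hl hx hdx (h l x hx)) (fun m a ha => h m a.1 ha.1) (Ex.inl X.C a)

/-- `tz` lies over `tzb` -/
theorem tz_ev {X : CD.{u} k} (T : Tw X) {Y : CD.{v} k} (ε : X.Hm Y)
    (h : ∀ m, ∀ a ∈ X.C.deg (m + 1), ε.f a = 0) {A : ND.{u'} X} {B : ND.{v'} Y}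
    (r : NDga.Hom A.D B.D) (hr : Zp A r) (he : ∀ a, r.f (A.ev.f a) = B.ev.f (ε.f a))
    (a : T.top.A) : (tz T A r hr).f ((T.obj A).ev.f a) = B.ev.f ((tzb T ε h).f a) := by
  induction T with
  | nil X => exact he a
  | cons X l hl x hx hdx T ih =>
    exact ih (exZb ε hl hx hdx (h l x hx)) (fun m a ha => h m a.1 ha.1) _ (hr.ex hl hx hdx)
      (fun a => he a.1) a

section

variable {σ : Type} [Fintype σ] [DecidableEq σ] {w : σ → ℕ} {f : ℕ} {Q : σ → MvPolynomial σ k}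
  {q : σ → σ → MvPolynomial σ k} {X : CD.{u} k} {S : KS X w f Q} {s : Finset σ} {e : σ → X.A}
  {T : Tw X} {ê : σ → T.top.A}

/-- the generators of a Koszul tower go to zero -/
theorem tzb_zero (H : KTw q S s e T ê) {Y : CD.{v} k} (ε : X.Hm Y)
    (h : ∀ m, ∀ a ∈ X.C.deg (m + 1), ε.f a = 0) (he : ∀ i, ε.f (e i) = 0) (j : σ) :
    (tzb T ε h).f (ê j) = 0 := by
  induction H with
  | done S e => exact he j
  | step S s e j' hj hmin hl c hc hx hdx T ê h' ih =>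
    refine ih (exZb ε hl hx hdx (h _ c hx)) (fun m a ha => h m a.1 ha.1) fun i => ?_
    rcases eq_or_ne i j' with rfl | hi
    · rw [nxt_self]
      exact map_zero ε.f
    · rw [nxt_ne e hi]
      exact he i

/-- **uniqueness** of the augmentation of a Koszul tower -/
theorem eq_tzb (H : KTw q S s e T ê) {Y : CD.{v} k} (ε : X.Hm Y)
    (h : ∀ m, ∀ a ∈ X.C.deg (m + 1), ε.f a = 0) (he : ∀ i, ε.f (e i) = 0)
    {ω : T.top.Hm Y} (hω : ∀ a, ω.f (T.inc.f a) = ε.f a) (hω0 : ∀ j, ω.f (ê j) = 0)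
    (a : T.top.A) : ω.f a = (tzb T ε h).f a :=
  H.lift_unique (fun a => by rw [hω, tzb_inc]) (fun j => by rw [hω0, tzb_zero H ε h he]) a

/-- **uniqueness**: every extension of the restriction is `tz` -/
theorem eq_tz (H : KTw q S s e T ê) {Y : CD.{v} k} (ε : X.Hm Y)
    (h : ∀ m, ∀ a ∈ X.C.deg (m + 1), ε.f a = 0) (he : ∀ i, ε.f (e i) = 0)
    {ω : T.top.Hm Y} (hω : ∀ a, ω.f (T.inc.f a) = ε.f a) (hω0 : ∀ j, ω.f (ê j) = 0)
    {A : ND.{u'} X} {B : ND.{v'} Y} (o : NMp ε A B) (hr : Zp A o.g)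
    (o' : NMp ω (T.obj A) B) (ho : ∀ a, o'.g.f ((T.inj A).f a) = o.g.f a) (a : (T.obj A).A) :
    o'.g.f a = (tz T A o.g hr).f a := by
  refine T.nlift_unique (fun b => ?_) (fun b => ?_) a
  · rw [ho, tz_inj]
  · rw [o'.ev, tz_ev T ε h o.g hr o.ev, eq_tzb H ε h he hω hω0]

end

end Vale.Agent.P216.V754
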