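import Vale.Agent.P216.V754.HI
import Vale.Agent.P216.D239.VFin
import Vale.Agent.P216.H923G.Loss

/-!
# P216-V: the independence in the based loops from the loss
-/

set_option linter.all false

open Set Filter Topology BoundedContinuousFunction

namespace Vale.Agent.P216.V754

open Vale.Agent.P231.Fm Vale.Agent.P231.WA Vale.Agent.P216.V1 Vale.Agent.P216.V609
open Vale.Agent.P216.H285V Vale.Agent.P216.H929V Vale.Agent.P216.V775 Vale.Agent.P216.V893
open Vale.Agent.P216.V670 (PSys)
open Vale.Agent.P216.V773 (sc gm gmH)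

noncomputable section

/-- **The independence in the based loops** from the loss of the plain system. -/
theorem hInd_vs {N : Type} [MetricSpace N] (b : N) {t₀ l : ℝ} (hL : (V994.plain b).Loss t₀ l) :
    D239.HInd N b := by
  intro f₂ T₁ ε hε P T₀ ê hP h h' om hω hω0
  exact GS.hInd' (gsPlain b (Sc.mk ε hε)) (H977V.zps_plain_sub b (Sc.mk ε hε))
    (PSys.subCone (V994.plain b) (Sc.mk ε hε)) (gmH (vr (univ : Set N)) hε)
    (fun i a => (vr (univ : Set N)).sys.of_map i.2 a) h (PSys.Loss.sub (Sc.mk ε hε) hL) hP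
    (fun t => one_ne_Om b t) hω0

/-- **The non-monogenic case.** -/
theorem vGoal : H215.VGoal := D239.vGoal_of fun N _ _ _ ρ hρ hU b => by
  obtain ⟨c, h⟩ := H923G.loss_plain hρ hU b
  exact hInd_vs b (h 1 one_pos)

end

end Vale.Agent.P216.V754
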